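import Vale.Agent.P203S46.Rz

/-! The realisation of a principal lower set is a ball, if its boundary spans a complete fan. -/

set_option linter.all false

namespace Vale.Agent.P203S

open Set Topology Function Metric

variable {P : Type} {r : P → P → Prop}

/-- the cone over the boundary of the cell `τ` -/
structure Cn (r : P → P → Prop) (τ : P) (y : P → ℝ) : Prop where
  nn : ∀ c, 0 ≤ y c
  le : ∀ c, y c ≠ 0 → r c τ
  ch : IsChain r (support y)
  top : y τ = 0

section

variable {E : Type} [AddCommGroup E] [Module ℝ E]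

/-- the linear map with the values `vec c` -/
noncomputable def Phi (F : Finset P) (vec : P → E) (y : P → ℝ) : E := ∑ c ∈ F, y c • vec c

theorem Phi_smul (F : Finset P) (vec : P → E) (a : ℝ) (y : P → ℝ) :
    Phi F vec (a • y) = a • Phi F vec y := by
  simp only [Phi, Finset.smul_sum, Pi.smul_apply, smul_eq_mul, mul_smul]

theorem Phi_add (F : Finset P) (vec : P → E) (y z : P → ℝ) :
    Phi F vec (y + z) = Phi F vec y + Phi F vec z := by
  simp only [Phi, Pi.add_apply, add_smul, Finset.sum_add_distrib]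

theorem Phi_single [DecidableEq P] {F : Finset P} (vec : P → E) {c : P} (hc : c ∈ F) (a : ℝ) :
    Phi F vec (Pi.single c a) = a • vec c := by
  unfold Phi
  rw [Finset.sum_eq_single c (fun d _ hd => by rw [Pi.single_eq_of_ne hd, zero_smul])
    (fun h => (h hc).elim), Pi.single_eq_same]

end

variable {E : Type} [NormedAddCommGroup E] [NormedSpace ℝ E]

theorem Cn.zero (τ : P) : Cn r τ 0 :=
  ⟨fun _ => le_rfl, fun _ h => (h rfl).elim, by simp, rfl⟩

theorem Cn.smul {τ : P} {y : P → ℝ} (h : Cn r τ y) {a : ℝ} (ha : 0 ≤ a) : Cn r τ (a • y) :=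
  ⟨fun c => mul_nonneg ha (h.nn c), fun c hc => h.le c (right_ne_zero_of_mul hc),
    h.ch.mono fun c hc => right_ne_zero_of_mul hc, by simp [h.top]⟩

theorem exists_chi (h : LF r) (τ : P) (F : Finset P) (hF : ∀ c, c ∈ F ↔ r c τ) (vec : P → E)
    (h0 : vec τ = 0)
    (inj : ∀ y y', Cn r τ y → Cn r τ y' → Phi F vec y = Phi F vec y' → y = y')
    (surj : ∀ v, ∃ y, Cn r τ y ∧ Phi F vec y = v) :
    ∃ χ : E → Rz r, ContinuousOn χ (closedBall 0 1) ∧ InjOn χ (closedBall 0 1) ∧
      χ '' closedBall 0 1 = {x | ∀ c, x.wt c ≠ 0 → r c τ} ∧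
      ∀ v ∈ closedBall (0 : E) 1, (χ v).wt τ = 1 - ‖v‖ := by
  classical
  set K : Set (Rz r) := {x | ∀ c, x.wt c ≠ 0 → r c τ} with hK
  have hτ : τ ∈ F := (hF τ).2 (h.refl τ)
  have hKc : IsCompact K := isCompact_K h (F := {c | r c τ}) ((h.fin τ).subset fun c hc => Or.inr hc)
  let o : Rz r → P → ℝ := fun x => update x.wt τ 0
  have o1 : ∀ x, x.wt = o x + Pi.single τ (x.wt τ) := fun x => by
    funext c
    by_cases e : c = τ
    · subst e; simp [o]
    · simp [o, e]
  have o2 : ∀ x c, o x c ≠ 0 → x.wt c ≠ 0 := fun x c hc => by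
    by_cases e : c = τ
    · subst e; simp [o] at hc
    · simpa [o, e] using hc
  have oC : ∀ x ∈ K, Cn r τ (o x) := fun x hx =>
    ⟨fun c => by
      by_cases e : c = τ
      · subst e; simp [o]
      · simpa [o, e] using x.nn c, fun c hc => hx c (o2 x c hc),
      x.chain.mono fun c hc => o2 x c hc, by simp [o]⟩
  have oP : ∀ x, Phi F vec x.wt = Phi F vec (o x) := fun x => by
    conv_lhs => rw [o1 x, Phi_add, Phi_single vec hτ, h0, smul_zero, add_zero]
  have oS : ∀ x ∈ K, ∑ c ∈ F, o x c = 1 - x.wt τ := fun x hx => by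
    have a := x.sum_of (F := F) fun c hc => (hF c).2 (hx c hc)
    rw [o1 x] at a
    simp only [Pi.add_apply, Finset.sum_add_distrib, Finset.sum_pi_single', hτ, if_true] at a
    linarith
  let Θ : Rz r → E := fun x => ((1 - x.wt τ) / ‖Phi F vec x.wt‖) • Phi F vec x.wt
  have z0 : ∀ x ∈ K, Phi F vec x.wt = 0 → o x = 0 := fun x hx e =>
    inj _ _ (oC x hx) (Cn.zero τ) (by rw [← oP, e]; simp [Phi])
  have nΘ : ∀ x ∈ K, ‖Θ x‖ = 1 - x.wt τ := fun x hx => by
    by_cases e : Phi F vec x.wt = 0
    · have a := oS x hx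
      rw [z0 x hx e] at a
      simp only [Θ, e, smul_zero, norm_zero]
      simpa using a
    · simp only [Θ]
      rw [norm_smul, Real.norm_of_nonneg (div_nonneg (sub_nonneg.2 (x.le_one τ)) (norm_nonneg _)),
        div_mul_cancel₀ _ (norm_ne_zero_iff.2 e)]
  have cP : Continuous fun x : Rz r => Phi F vec x.wt :=
    continuous_finsetSum _ fun c _ => (cont_ap h c).smul continuous_const
  have c1 : Continuous fun x : Rz r => 1 - x.wt τ := continuous_const.sub (cont_ap h τ)
  have cΘ : ContinuousOn Θ K := fun x hx => by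
    by_cases e : Phi F vec x.wt = 0
    · have a : Θ x = 0 := by simp only [Θ, e, smul_zero]
      have b : 1 - x.wt τ = 0 := by rw [← nΘ x hx, a, norm_zero]
      rw [ContinuousWithinAt, a, tendsto_zero_iff_norm_tendsto_zero, ← b]
      refine (c1.continuousWithinAt (s := K) (x := x)).tendsto.congr' ?_
      filter_upwards [self_mem_nhdsWithin] with y hy using (nΘ y hy).symm
    · exact ((c1.continuousAt.div cP.norm.continuousAt (norm_ne_zero_iff.2 e)).smul
        cP.continuousAt).continuousWithinAt
  have iΘ : InjOn Θ K := fun x hx x' hx' e => by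
    have e1 : x.wt τ = x'.wt τ := by
      have := nΘ x hx
      rw [e, nΘ x' hx'] at this
      linarith
    suffices o x = o x' from Rz.ext fun c => by rw [o1 x, o1 x', this, e1]
    by_cases a : Phi F vec x.wt = 0
    · have b : 1 - x'.wt τ = 0 := by rw [← nΘ x' hx', ← e]; simp only [Θ, a, smul_zero, norm_zero]
      rw [z0 x hx a]
      funext c
      by_contra hc
      have hc' : o x' c ≠ 0 := fun e => hc e.symm
      have := Finset.sum_pos' (fun d (_ : d ∈ F) => (oC x' hx').nn d)
        ⟨c, (hF c).2 ((oC x' hx').le c hc'), lt_of_le_of_ne ((oC x' hx').nn c) hc'.symm⟩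
      rw [oS x' hx'] at this
      linarith
    · have ρ : 1 - x.wt τ ≠ 0 := fun b => a (by
        have : o x = 0 := by
          funext c
          by_contra hc
          have := Finset.sum_pos' (fun d (_ : d ∈ F) => (oC x hx).nn d)
            ⟨c, (hF c).2 ((oC x hx).le c hc), lt_of_le_of_ne ((oC x hx).nn c) (Ne.symm hc)⟩
          rw [oS x hx] at this
          linarith
        rw [oP, this]; simp [Phi])
      have e2 := inj _ _ ((oC x hx).smul (div_nonneg (sub_nonneg.2 (x.le_one τ))
        (norm_nonneg (Phi F vec x.wt)))) ((oC x' hx').smul (div_nonneg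
        (sub_nonneg.2 (x'.le_one τ)) (norm_nonneg (Phi F vec x'.wt))))
        (by rw [Phi_smul, Phi_smul, ← oP, ← oP]; exact e)
      have e3 := congrArg (fun y => ∑ c ∈ F, y c) e2
      simp only [Pi.smul_apply, smul_eq_mul, ← Finset.mul_sum] at e3
      rw [oS x hx, oS x' hx', ← e1] at e3
      have e4 := mul_right_cancel₀ ρ e3
      rw [← e1, ← e4] at e2
      exact smul_right_injective _ (div_ne_zero ρ (norm_ne_zero_iff.2 a)) e2
  have sΘ : SurjOn Θ K (closedBall 0 1) := fun v hv => by
    have hv1 : ‖v‖ ≤ 1 := by simpa using hv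
    by_cases e : v = 0
    · have a : vtx r τ ∈ K := fun c hc => by
        have : c = τ := by simpa [vtx_ap] using hc
        exact this ▸ h.refl c
      refine ⟨vtx r τ, a, ?_⟩
      rw [e, ← norm_eq_zero, nΘ _ a]
      simp [vtx_ap]
    · obtain ⟨y, hy, rfl⟩ := surj v
      have m0 : 0 < ∑ c ∈ F, y c := by
        refine Finset.sum_pos' (fun d _ => hy.nn d) ?_
        by_contra a
        push Not at a
        refine e (Finset.sum_eq_zero fun c hc => ?_)
        rw [le_antisymm (a c hc) (hy.nn c), zero_smul]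
      set n := ‖Phi F vec y‖ with hn
      have n0 : 0 < n := norm_pos_iff.2 e
      set m := ∑ c ∈ F, y c with hm
      let z : P → ℝ := (n / m) • y + Pi.single τ (1 - n)
      have zs : ∀ c, z c ≠ 0 → c = τ ∨ y c ≠ 0 := fun c hc => by
        by_contra a
        push Not at a
        simp [z, a.1, a.2] at hc
      have zl : ∀ c, z c ≠ 0 → r c τ := fun c hc =>
        (zs c hc).elim (fun a => a ▸ h.refl c) (hy.le c)
      let x : Rz r := ⟨z, fun c => add_nonneg (mul_nonneg (by positivity) (hy.nn c)) (by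
          rw [Pi.single_apply]; split_ifs <;> linarith),
        F.finite_toSet.subset fun c hc => (hF c).2 (zl c hc), fun c hc d hd hne => by
          rcases zs c hc with rfl | a
          · exact Or.inr (zl d hd)
          · rcases zs d hd with rfl | b
            · exact Or.inl (zl c hc)
            · exact hy.ch a b hne, by
          rw [finsum_eq_sum_of_support_subset (s := F) _ fun c hc => (hF c).2 (zl c hc)]
          simp only [z, Pi.add_apply, Pi.smul_apply, smul_eq_mul, Finset.sum_add_distrib,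
            Finset.sum_pi_single', hτ, if_true, ← Finset.mul_sum, ← hm]
          field_simp
          ring⟩
      refine ⟨x, zl, ?_⟩
      have a1 : x.wt τ = 1 - n := by simp [x, z, hy.top]
      have a2 : Phi F vec x.wt = (n / m) • Phi F vec y := by
        simp only [x, z]
        rw [Phi_add, Phi_smul, Phi_single vec hτ, h0, smul_zero, add_zero]
      simp only [Θ]
      rw [a1, a2, norm_smul, Real.norm_of_nonneg (by positivity), ← hn, smul_smul]
      have : (1 - (1 - n)) / (n / m * n) * (n / m) = 1 := by field_simp; ring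
      rw [this, one_smul]
  have : Nonempty (Rz r) := ⟨vtx r τ⟩
  have mΘ : MapsTo Θ K (closedBall 0 1) := fun x hx => by
    rw [mem_closedBall_zero_iff, nΘ x hx]; linarith [x.nn τ]
  have bij : BijOn Θ K (closedBall 0 1) := ⟨mΘ, iΘ, sΘ⟩
  have inv := bij.invOn_invFunOn
  have bij' := (bij.symm inv.symm)
  refine ⟨invFunOn Θ K, ?_, bij'.injOn, bij'.image_eq, fun v hv => ?_⟩
  · rw [continuousOn_iff_isClosed]
    intro t ht
    refine ⟨Θ '' (K ∩ t), ((hKc.inter_right ht).image_of_continuousOn
      (cΘ.mono inter_subset_left)).isClosed, ?_⟩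
    ext v
    constructor
    · rintro ⟨a, b⟩
      exact ⟨⟨_, ⟨bij'.mapsTo b, a⟩, inv.2 b⟩, b⟩
    · rintro ⟨⟨x, ⟨a, b⟩, rfl⟩, c⟩
      refine ⟨?_, c⟩
      rw [mem_preimage, inv.1 a]; exact b
  · have := nΘ _ (bij'.mapsTo hv)
    rw [inv.2 hv] at this
    linarith

end Vale.Agent.P203S
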