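import Vale.Agent.P203S46.Fan
import Mathlib.Topology.CWComplex.Classical.Finite

/-! The Salvetti complex is a finite CW complex with one cell for each spherical subset. -/

set_option linter.all false

namespace Vale.Agent.P203S

open Set Topology Function Metric Vale.Agent.P203

variable {S : Type} {M : CoxeterMatrix S} [Finite S]

/-- the cell `(1, T)` -/
def tp {n : ℕ} (T : Cell M n) : SCell M := ⟨1, T.T, T.spherical⟩

theorem exists_chi_cell {n : ℕ} (T : Cell M n) :
    ∃ χ : (Fin n → ℝ) → Rz (SLe M), ContinuousOn χ (closedBall 0 1) ∧ InjOn χ (closedBall 0 1) ∧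
      χ '' closedBall 0 1 = {x | ∀ c, x.wt c ≠ 0 → SLe M c (tp T)} ∧
      ∀ v ∈ closedBall (0 : Fin n → ℝ) 1, (χ v).wt (tp T) = 1 - ‖v‖ := by
  classical
  have hf : {c | SLe M c (tp T)}.Finite := (lf.fin (tp T)).subset fun c hc => Or.inr hc
  have hF : ∀ c, c ∈ hf.toFinset ↔ SLe M c (tp T) := fun c => hf.mem_toFinset
  let e : T.T ≃ Fin n := Finset.equivFinOfCardEq T.card_eq
  have key : ∀ y i, Phi hf.toFinset (fun c i => cv c (e.symm i)) y i =
      Phi hf.toFinset cv y (e.symm i) := fun y i => by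
    simp only [Phi, Finset.sum_apply, Pi.smul_apply]
  refine exists_chi lf (tp T) _ hF (fun c i => cv c (e.symm i)) ?_ ?_ ?_
  · funext i
    change Tits.dact _ 1 _ _ = _
    rw [Tits.dact_one_apply]
    exact om_mem (e.symm i).2
  · intro y y' hy hy' h
    refine fan_inj hF _ y y' rfl hy hy' fun t ht => ?_
    have := congrFun h (e ⟨t, ht⟩)
    rwa [key, key, e.symm_apply_apply] at this
  · intro v
    obtain ⟨y, h1, h2⟩ := fan_surj hF fun s => if h : s ∈ T.T then v (e ⟨s, h⟩) else 0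
    refine ⟨y, h1, funext fun i => ?_⟩
    rw [key, h2 _ (e.symm i).2, dif_pos (e.symm i).2]
    simp

theorem mem_face (x : Rz (SLe M)) {n : ℕ} (T : Cell M n) (h : T.T = (mx lf x).T) :
    Quot.mk _ x ∈ face M T := by
  refine ⟨(mx lf x).u⁻¹ • x, fun c hc => ?_, mk_smul _ _⟩
  have := le_mx lf _ hc
  rw [mx_smul] at this
  have e : sMul (mx lf x).u⁻¹ (mx lf x) = ⟨1, T.T, T.spherical⟩ :=
    SCell.ext (inv_mul_cancel _) h.symm
  rwa [e] at this

theorem exists_cw : ∃ (C : CWComplex (univ : Set (Salvetti M))) (e : ∀ n, Cell M n ≃ C.cell n),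
    ∀ n T, C.map n (e n T) '' closedBall 0 1 = face M T := by
  classical
  have := t2_X (M := M)
  have := Fintype.ofFinite S
  choose χ h1 h2 h3 h4 using fun n (T : Cell M n) => exists_chi_cell T
  have mem : ∀ n (T : Cell M n), ∀ v ∈ closedBall (0 : Fin n → ℝ) 1, ∀ c, (χ n T v).wt c ≠ 0 →
      SLe M c (tp T) := fun n T v hv => (h3 n T).subset ⟨v, hv, rfl⟩
  have top : ∀ n (T : Cell M n), ∀ v ∈ closedBall (0 : Fin n → ℝ) 1,
      mx lf (χ n T v) = tp T ↔ v ∈ ball (0 : Fin n → ℝ) 1 := fun n T v hv => by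
    rw [mem_ball_zero_iff]
    constructor
    · intro a
      have b := (χ n T v).pos (mx_ne lf _)
      rw [a, h4 n T v hv] at b
      linarith
    · intro a
      exact mx_eq lf _ (by rw [h4 n T v hv]; linarith) (mem n T v hv)
  have sep : ∀ n (T : Cell M n) m (T' : Cell M m), ∀ v ∈ ball (0 : Fin n → ℝ) 1,
      ∀ v' ∈ closedBall (0 : Fin m → ℝ) 1, T.T.card ≥ T'.T.card →
      Quot.mk (SOrbit M) (χ n T v) = Quot.mk _ (χ m T' v') → χ n T v = χ m T' v' ∧ T.T = T'.T := by
    intro n T m T' v hv v' hv' hc e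
    obtain ⟨w, hw⟩ := mk_eq_iff.1 e
    have a := (top n T v (ball_subset_closedBall hv)).2 hv
    have b := mem m T' v' hv' _ (mx_ne lf _)
    rw [← hw] at a
    simp only [mx_smul] at a
    have a1 : (mx lf (χ m T' v')).T = T.T := congrArg SCell.T a
    have a2 : w * (mx lf (χ m T' v')).u = 1 := congrArg SCell.u a
    have a3 : T.T = T'.T := Finset.eq_of_subset_of_card_le (a1 ▸ b.1) hc
    have a4 := eq_top b (by rw [a1, a3])
    rw [a4, mul_one] at a2
    subst a2
    exact ⟨by rw [← hw]; exact one_smul _ _, a3⟩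
  have inj : ∀ n (T : Cell M n), ∀ v ∈ ball (0 : Fin n → ℝ) 1,
      ∀ v' ∈ closedBall (0 : Fin n → ℝ) 1,
      Quot.mk (SOrbit M) (χ n T v) = Quot.mk _ (χ n T v') → v = v' := fun n T v hv v' hv' e =>
    h2 n T (ball_subset_closedBall hv) hv' (sep n T n T v hv v' hv' le_rfl e).1
  let f : ∀ n (T : Cell M n), (Fin n → ℝ) → Salvetti M := fun n T v => Quot.mk _ (χ n T v)
  have fc : ∀ n T, ContinuousOn (f n T) (closedBall 0 1) := fun n T =>
    continuous_quot_mk.comp_continuousOn (h1 n T)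
  have fi : ∀ n T, f n T '' closedBall 0 1 = face M T := fun n T => by
    rw [face, ← image_image (Quot.mk (SOrbit M)) (χ n T), h3]; rfl
  let mp : ∀ n (T : Cell M n), PartialEquiv (Fin n → ℝ) (Salvetti M) := fun n T =>
    InjOn.toPartialEquiv (f n T) (ball 0 1) fun v hv v' hv' e =>
      inj n T v hv v' (ball_subset_closedBall hv') e
  refine ⟨CWComplex.mkFinite univ (Cell M) mp ?_ ?_ (fun _ _ => rfl) fc ?_ ?_ ?_ ?_,
    fun n => Equiv.refl _, fi⟩
  · filter_upwards [Filter.eventually_gt_atTop (Fintype.card S)] with n hn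
    exact ⟨fun T => by have := T.T.card_le_univ; have := T.card_eq; omega⟩
  · exact fun n => Finite.of_injective (fun T : Cell M n => T.T) fun _ _ => Cell.ext
  · intro n T
    rw [continuousOn_iff_isClosed]
    intro t ht
    refine ⟨f n T '' (closedBall 0 1 ∩ t), (((isCompact_closedBall _ _).inter_right
      ht).image_of_continuousOn ((fc n T).mono inter_subset_left)).isClosed, ?_⟩
    ext y
    constructor
    · rintro ⟨a, b⟩
      exact ⟨⟨_, ⟨ball_subset_closedBall ((mp n T).map_target b), a⟩, (mp n T).right_inv b⟩, b⟩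
    · rintro ⟨⟨v, ⟨a, b⟩, rfl⟩, c⟩
      refine ⟨?_, c⟩
      have := inj n T _ ((mp n T).map_target c) v a ((mp n T).right_inv c)
      rw [mem_preimage, this]; exact b
  · rintro ⟨n, T⟩ - ⟨m, T'⟩ - hne
    refine disjoint_left.2 ?_
    rintro _ ⟨v, hv, rfl⟩ ⟨v', hv', e⟩
    have a : T.T = T'.T := by
      rcases le_total T.T.card T'.T.card with k | k
      · exact (sep m T' n T v' hv' v (ball_subset_closedBall hv) k e).2.symm
      · exact (sep n T m T' v hv v' (ball_subset_closedBall hv') k e.symm).2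
    obtain rfl : n = m := by rw [← T.card_eq, a, T'.card_eq]
    exact hne (by rw [Cell.ext a])
  · intro n T v hv
    have hv' := sphere_subset_closedBall hv
    have b := mem n T v hv' _ (mx_ne lf _)
    let T' : Cell M (mx lf (χ n T v)).T.card := ⟨_, (mx lf (χ n T v)).sph, rfl⟩
    refine mem_iUnion₂.2 ⟨_, ?_, mem_iUnion.2 ⟨T', ?_⟩⟩
    · refine lt_of_lt_of_eq (Finset.card_lt_card ⟨b.1, fun a => ?_⟩) T.card_eq
      have := (top n T v hv').1 (eq_top b a)
      rw [mem_ball_zero_iff, mem_sphere_zero_iff_norm.1 hv] at this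
      exact lt_irrefl _ this
    · exact (fi _ T').superset (mem_face _ T' rfl)
  · refine eq_univ_of_forall fun y => ?_
    obtain ⟨x, rfl⟩ := Quot.exists_rep y
    let T' : Cell M (mx lf x).T.card := ⟨_, (mx lf x).sph, rfl⟩
    exact mem_iUnion₂.2 ⟨_, T', (fi _ T').superset (mem_face _ T' rfl)⟩

end Vale.Agent.P203S
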