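import Vale.Agent.P203S46.CW

/-! The one-cells of the Salvetti complex are the standard generators. -/

set_option linter.all false

namespace Vale.Agent.P203S

open Set Topology Function Metric Vale.Agent.P203 Vale.Agent.P203.Top Vale.Agent.P203.Sph
  Vale.Agent.P203.Tits Vale.Agent.P203.Gar Vale.Agent.P203.Cox

variable {S : Type} {M : CoxeterMatrix S}

theorem sph_empty : Spherical M ∅ := by
  unfold Spherical
  rw [Finset.coe_empty, image_empty, Subgroup.closure_empty]
  infer_instance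

/-- the vertices -/
def vc (u : M.Group) : SCell M := ⟨u, ∅, sph_empty⟩

theorem WT_empty {w : M.Group} (h : w ∈ WT M ∅) : w = 1 := by
  rw [WT, Finset.coe_empty, image_empty, Subgroup.closure_empty] at h
  exact h

theorem WT_single {s : S} {w : M.Group} (h : w ∈ WT M {s}) : w = 1 ∨ w = M.simple s := by
  induction h using Subgroup.closure_induction with
  | mem x hx =>
    obtain ⟨t, ht, rfl⟩ := hx
    obtain rfl : t = s := by simpa using ht
    exact Or.inr rfl
  | one => exact Or.inl rfl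
  | mul x y _ _ hx hy =>
    rcases hx with rfl | rfl <;> rcases hy with rfl | rfl <;> simp [simple_mul_self]
  | inv x _ hx => rcases hx with rfl | rfl <;> simp [simple_inv]

/-- the canonical lift of a cell -/
noncomputable def lc' (c : SCell M) : ACell M := ⟨tl c.u, c.T, c.sph⟩

theorem lc'_mono {T : Finset S} {hT : Spherical M T} {c d : SCell M} (h : SLe M c d)
    (hd : SLe M d ⟨1, T, hT⟩) : lc' c ≤ lc' d := by
  obtain ⟨h1, h2⟩ := SLe_iff'.1 h
  refine ⟨h1, _, h2, ?_⟩
  change tl c.u = tl d.u * tl (d.u⁻¹ * c.u)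
  rw [← tl_mul (len_mul_of_min (le_top.1 hd).2.2 h2.1), mul_inv_cancel_left]

variable [Finite S]

theorem eq_vtx (x : Rz (SLe M)) (h : (mx lf x).T = ∅) : x = vtx _ (vc (mx lf x).u) := by
  classical
  have e : mx lf x = vc (mx lf x).u := SCell.ext rfl h
  have a : ∀ d, x.wt d ≠ 0 → d = vc (mx lf x).u := fun d hd => by
    obtain ⟨h1, h2, -⟩ := le_mx lf x hd
    rw [h] at h1 h2
    exact SCell.ext (inv_mul_eq_one.1 (WT_empty h2)).symm (Finset.subset_empty.1 h1)
  refine Rz.ext fun d => ?_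
  rw [vtx_ap]
  split_ifs with b
  · have := x.sum_of (F := {d}) fun c hc => by rw [b]; simpa using a c hc
    simpa using this
  · by_contra k
    exact b (a d k)

theorem smul_vtx (w u : M.Group) : w • vtx (SLe M) (vc u) = vtx _ (vc (w * u)) := by
  classical
  refine Rz.ext fun c => ?_
  rw [← sMul_inv w c, smul_wt', vtx_ap, vtx_ap]
  exact if_congr (sMul w).injective.eq_iff.symm rfl rfl

theorem sep' {n : ℕ} (T : Cell M n) {x x' : Rz (SLe M)} (hx : mx lf x = tp T)
    (hx' : ∀ c, x'.wt c ≠ 0 → SLe M c (tp T))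
    (e : Quot.mk (SOrbit M) x = Quot.mk _ x') : x = x' := by
  obtain ⟨w, rfl⟩ := mk_eq_iff.1 e
  simp only [mx_smul] at hx
  have a1 : (mx lf x').T = T.T := congrArg SCell.T hx
  have a2 : w * (mx lf x').u = 1 := congrArg SCell.u hx
  rw [eq_top (hx' _ (mx_ne lf _)) (by rw [a1]), mul_one] at a2
  subst a2
  exact one_smul _ _

/-- the section over the cells `(1, T)` -/
noncomputable def sec (x : Rz (SLe M)) :
    Tot (fun x : Rz (SLe M) => toWC (mn lf x)) (cellProj (M := M)) :=
  ⟨(x, lc' (mn lf x)), WCell.ext (toW_tl _).symm rfl⟩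

theorem cont_sec {n : ℕ} (T : Cell M n) :
    ContinuousOn sec {x : Rz (SLe M) | ∀ c, x.wt c ≠ 0 → SLe M c (tp T)} := by
  refine continuousOn_tot continuousOn_id fun x hx => ?_
  filter_upwards [mem_nhdsWithin_of_mem_nhds ((isOpen_mn lf (mn lf x)).mem_nhds (lf.refl _))]
    with y hy using lc'_mono hy (hx _ (mn_ne lf x))

theorem exists_edge (s : S) (T : Cell M 1) (hT : T.T = {s}) :
    ∃ γ : Path (vtx (SLe M) (vc (M.simple s))) (vtx (SLe M) (vc 1)),
      range γ = {x | ∀ c, x.wt c ≠ 0 → SLe M c (tp T)} ∧ Injective γ ∧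
      ∀ t ∈ Ioo (0 : unitInterval) 1, mx lf (γ t) = tp T := by
  obtain ⟨χ, h1, h2, h3, h4⟩ := exists_chi_cell T
  have nr : ∀ a : ℝ, ‖(fun _ => a : Fin 1 → ℝ)‖ = |a| := fun a => by simp
  have mb : ∀ a : ℝ, |a| ≤ 1 → (fun _ => a : Fin 1 → ℝ) ∈ closedBall (0 : Fin 1 → ℝ) 1 :=
    fun a ha => by rw [mem_closedBall_zero_iff, nr]; exact ha
  have ends : ∀ a : ℝ, |a| = 1 → χ (fun _ => a) = vtx _ (vc 1) ∨
      χ (fun _ => a) = vtx _ (vc (M.simple s)) := fun a ha => by
    have b := h3.subset ⟨_, mb a ha.le, rfl⟩ _ (mx_ne lf _)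
    have c : (mx lf (χ fun _ => a)).T = ∅ := by
      have d := b.1
      change _ ⊆ T.T at d
      rw [hT] at d
      refine (Finset.subset_singleton_iff.1 d).resolve_right fun k => ?_
      have := mx_ne lf (χ fun _ => a)
      rw [eq_top b (by rw [k, ← hT])] at this
      exact this ((h4 _ (mb a ha.le)).trans (by rw [nr, ha, sub_self]))
    have d := (le_top.1 b).2.1
    rw [hT] at d
    rw [eq_vtx _ c]
    exact (WT_single d).imp (fun k => by rw [k]) fun k => by rw [k]
  obtain ⟨ε, e1, e2, e3⟩ : ∃ ε : ℝ, |ε| = 1 ∧ χ (fun _ => ε) = vtx _ (vc 1) ∧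
      χ (fun _ => -ε) = vtx _ (vc (M.simple s)) := by
    have ne : χ (fun _ => 1) ≠ χ (fun _ => -1) := fun k => by
      have := congrFun (h2 (mb 1 (by simp)) (mb (-1) (by simp)) k) 0
      norm_num at this
    rcases ends 1 (by simp) with a | a <;> rcases ends (-1) (by simp) with b | b
    · exact (ne (a.trans b.symm)).elim
    · exact ⟨1, by simp, a, b⟩
    · exact ⟨-1, by simp, b, by simpa using a⟩
    · exact (ne (a.trans b.symm)).elim
  have ε0 : ε ≠ 0 := by rintro rfl; simp at e1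
  have jb : ∀ t : unitInterval, |ε * (2 * t - 1)| ≤ 1 := fun t => by
    rw [abs_mul, e1, one_mul, abs_le]
    constructor <;> linarith [t.2.1, t.2.2]
  refine ⟨⟨⟨fun t => χ fun _ => ε * (2 * t - 1), h1.comp_continuous (by fun_prop)
    fun t => mb _ (jb t)⟩, ?_, ?_⟩, ?_, ?_, ?_⟩
  · simpa using e3
  · have : ε * (2 * ((1 : unitInterval) : ℝ) - 1) = ε := by norm_num
    simp only [this, e2]
  · rw [← h3]
    ext x
    constructor
    · rintro ⟨t, rfl⟩
      exact ⟨_, mb _ (jb t), rfl⟩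
    · rintro ⟨v, hv, rfl⟩
      have a : |v 0 * ε| ≤ 1 := by
        rw [abs_mul, e1, mul_one]
        exact (norm_le_pi_norm v 0).trans (mem_closedBall_zero_iff.1 hv)
      rw [abs_le] at a
      refine ⟨⟨(v 0 * ε + 1) / 2, by linarith [a.1], by linarith [a.2]⟩, congrArg χ ?_⟩
      funext i
      have : ε * ε = 1 := by rw [← abs_mul_abs_self, e1, one_mul]
      rw [Subsingleton.elim i 0]
      linear_combination (v 0) * this
  · intro t t' k
    have := congrFun (h2 (mb _ (jb t)) (mb _ (jb t')) k) 0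
    exact Subtype.ext (by linarith [mul_left_cancel₀ ε0 this])
  · intro t ht
    refine mx_eq lf _ ?_ (h3.subset ⟨_, mb _ (jb t), rfl⟩)
    have a : |ε * (2 * t - 1)| < 1 := by
      have b1 : (0 : ℝ) < t := ht.1
      have b2 : (t : ℝ) < 1 := ht.2
      rw [abs_mul, e1, one_mul, abs_lt]
      constructor <;> linarith
    change (χ _).wt _ ≠ 0
    rw [h4 _ (mb _ (jb t)), nr]
    linarith

theorem exists_gen : ∃ (x₀ : Salvetti M) (φ : FundamentalGroup (Salvetti M) x₀ ≃* ArtinGroup M),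
    (∀ T : Cell M 0, face M T = {x₀}) ∧ ∀ (s : S) (T : Cell M 1), T.T = {s} →
      ∃ γ : Path x₀ x₀, range γ = face M T ∧ InjOn γ (Ico 0 1) ∧
        φ (FundamentalGroup.fromPath ⟦γ⟧) = artinGen M s := by
  have := t2 (lf (M := M))
  have := lc (lf (M := M))
  have := countable_scell (M := M)
  have := sc (lf (M := M))
  letI := (strat_X (M := M)).act
  have := tot_t2 (p := fun x : Rz (SLe M) => toWC (mn lf x))
  have := tot_lc (strat_X (M := M))
  have := tot_sc (p := fun x : Rz (SLe M) => toWC (mn lf x))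
  have := contractible_of_AE (strat_X (M := M)).ae_tot
  have h := (strat_X (M := M)).cov.1
  let x₀ : Salvetti M := Quot.mk _ (vtx _ (vc 1))
  let e₀ : (Quot.mk (SOrbit M) ∘ Tot.pr) ⁻¹' {x₀} := ⟨sec (vtx _ (vc 1)), rfl⟩
  refine ⟨x₀, (h.fundamentalGroupEquiv e₀).trans (MulEquiv.inv' _).symm, fun T => ?_,
    fun s T hT => ?_⟩
  · have hT : T.T = ∅ := Finset.card_eq_zero.1 T.card_eq
    refine eq_singleton_iff_unique_mem.2 ⟨mem_face _ T ?_, ?_⟩
    · rw [hT, mx_eq lf (vtx _ (vc 1)) (c := vc 1) (by simp [vtx_ap]) fun d hd => by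
        have : d = vc 1 := by simpa [vtx_ap] using hd
        exact this ▸ lf.refl d]
      rfl
    · rintro _ ⟨x, hx, rfl⟩
      have a := (hx _ (mx_ne lf x)).1
      rw [eq_vtx x (Finset.subset_empty.1 (hT ▸ a)), ← mul_one (mx lf x).u, ← smul_vtx, mk_smul]
  · obtain ⟨γ, h1, h2, h3⟩ := exists_edge s T hT
    have mem : ∀ t c, (γ t).wt c ≠ 0 → SLe M c (tp T) := fun t => h1.subset ⟨t, rfl⟩
    have hs : Quot.mk (SOrbit M) (vtx _ (vc (M.simple s))) = x₀ := by
      rw [← mul_one (M.simple s), ← smul_vtx, mk_smul]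
    let γ' : Path x₀ x₀ := (γ.map continuous_quot_mk).cast hs.symm rfl
    refine ⟨γ', ?_, ?_, ?_⟩
    · change range (Quot.mk (SOrbit M) ∘ γ) = _
      rw [range_comp, h1]; rfl
    · intro t ht t' ht' k
      rcases ht.1.eq_or_lt with a | a
      · rcases ht'.1.eq_or_lt with b | b
        · exact a.symm.trans b
        · exact (h2 (sep' T (h3 t' ⟨b, ht'.2⟩) (mem t) k.symm)).symm
      · exact h2 (sep' T (h3 t ⟨a, ht.2⟩) (mem t') k)
    · let e₁ : (Quot.mk (SOrbit M) ∘ Tot.pr) ⁻¹' {x₀} := ⟨sec (vtx _ (vc (M.simple s))), hs⟩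
      have k1 : artinGen M s • e₀.1 = e₁.1 := by
        refine Tot.ext ?_ (ACell.ext ?_ ?_)
        · change toW M (artinGen M s) • vtx _ (vc 1) = vtx _ (vc (M.simple s))
          rw [toW_gen, smul_vtx, mul_one]
        · change artinGen M s * tl (mn lf (vtx _ (vc 1))).u = tl (mn lf (vtx _ (vc _))).u
          rw [mn_vtx, mn_vtx]
          change artinGen M s * tl 1 = tl (M.simple s)
          rw [tl_one, tl_simple, mul_one]
        · change (mn lf (vtx _ (vc 1))).T = (mn lf (vtx _ (vc _))).T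
          rw [mn_vtx, mn_vtx]; rfl
      let Γ : Path e₀.1 e₁.1 :=
        ⟨⟨fun t => sec (γ.symm t), (cont_sec T).comp_continuous γ.symm.continuous
          fun t => mem _⟩, by simp [e₀], by simp [e₁]⟩
      have k2 : h.fundamentalGroupToMulOpposite e₀ (FundamentalGroup.fromPath ⟦γ'.symm⟧) =
          MulOpposite.op (artinGen M s) := by
        rw [h.fundamentalGroupToMulOpposite_apply_eq_Iff]
        rw [h.isCoveringMap.monodromy_eq_of_map_eq (γ := ⟦γ'.symm⟧) (ex := e₀) (ey := e₁) ⟦Γ⟧ rfl]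
        exact k1
      have k3 : (FundamentalGroup.fromPath ⟦γ'.symm⟧ : FundamentalGroup (Salvetti M) x₀) =
          (FundamentalGroup.fromPath ⟦γ'⟧)⁻¹ := rfl
      rw [k3, map_inv, inv_eq_iff_eq_inv] at k2
      change (MulEquiv.inv' _).symm (h.fundamentalGroupToMulOpposite e₀ _) = _
      rw [k2, MulEquiv.symm_apply_eq]
      rfl

end Vale.Agent.P203S
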