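import Vale.Agent.P203.Top.AE
import Mathlib.Topology.Covering.Quotient
import Mathlib.Topology.Homotopy.Contractible
import Mathlib.Topology.Homotopy.Equiv

/-! Equivariant extension of maps to absolute extensors. -/

set_option linter.all false

namespace Vale.Agent.P203S

open Set Topology Vale.Agent.P203.Top

section

variable {G E E' : Type} [Group G] [TopologicalSpace E] [TopologicalSpace E']
  [MulAction G E] [MulAction G E'] [ContinuousConstSMul G E] [ContinuousConstSMul G E']

/-- a free and proper action, in the form used below -/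
structure Nice (G E : Type) [Group G] [TopologicalSpace E] [MulAction G E] : Prop where
  nb : ∀ e : E, ∃ K ∈ 𝓝 e, IsCompact K ∧ ∀ (g : G), ∀ k ∈ K, g • k ∈ K → g = 1
  lf : ∀ K : Set E, IsCompact K → LocallyFinite fun g : G => (g • ·) '' K

/-- an equivariant map on a closed invariant set -/
structure Pm (G : Type) [Group G] {E E' : Type} [TopologicalSpace E] [TopologicalSpace E']
    [MulAction G E] [MulAction G E'] (D : Set E) (f : E → E') : Prop where
  cl : IsClosed D
  inv : ∀ (g : G), ∀ e ∈ D, g • e ∈ D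
  co : ContinuousOn f D
  eqv : ∀ (g : G), ∀ e ∈ D, f (g • e) = g • f e

theorem Pm.step [T2Space E] (hN : Nice G E) (hA : AE (univ : Set E')) {D : Set E} {f : E → E'}
    (h : Pm G D f) {K : Set E} (hK : IsCompact K)
    (hf : ∀ (g : G), ∀ k ∈ K, g • k ∈ K → g = 1) :
    ∃ (D' : Set E) (f' : E → E'), Pm G D' f' ∧ D ⊆ D' ∧ K ⊆ D' ∧ EqOn f' f D := by
  classical
  have : CompactSpace K := isCompact_iff_compactSpace.1 hK
  obtain ⟨F, hF, -, hFe⟩ := hA.2 K (Subtype.val ⁻¹' D) (h.cl.preimage continuous_subtype_val)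
    (fun k => f k.1) (h.co.comp continuous_subtype_val.continuousOn (fun _ hk => hk))
    (fun _ _ => mem_univ _)
  let f' : E → E' := fun e =>
    if he : ∃ p : G × K, p.1 • p.2.1 = e then he.choose.1 • F he.choose.2 else f e
  have h1 : ∀ (g : G) (k : K), f' (g • k.1) = g • F k := by
    intro g k
    have he : ∃ p : G × K, p.1 • p.2.1 = g • k.1 := ⟨(g, k), rfl⟩
    have e1 := he.choose_spec
    have e2 : g⁻¹ * he.choose.1 = 1 := hf _ _ he.choose.2.2 (by
      rw [mul_smul, e1, inv_smul_smul]; exact k.2)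
    have e3 : he.choose.1 = g := (inv_mul_eq_one.1 e2).symm
    have e4 : he.choose.2 = k := by
      apply Subtype.ext
      rw [e3] at e1
      exact smul_left_cancel g e1
    simp only [f', he, dif_pos]
    rw [e3, e4]
  have h2 : EqOn f' f D := by
    intro e he
    by_cases hp : ∃ p : G × K, p.1 • p.2.1 = e
    · obtain ⟨⟨g, k⟩, rfl⟩ := hp
      have hk : k.1 ∈ D := by simpa using h.inv g⁻¹ _ he
      rw [h1, hFe hk, h.eqv g _ hk]
    · simp only [f', hp, dif_neg, not_false_eq_true]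
  have hc : ∀ g : G, IsClosed ((g • ·) '' K) := fun g =>
    (hK.image (continuous_const_smul g)).isClosed
  have hU : IsClosed (⋃ g : G, (g • ·) '' K) := (hN.lf K hK).isClosed_iUnion hc
  refine ⟨D ∪ ⋃ g : G, (g • ·) '' K, f', ⟨h.cl.union hU, ?_, ?_, ?_⟩, subset_union_left,
    fun k hk => Or.inr (mem_iUnion.2 ⟨1, k, hk, one_smul _ _⟩), h2⟩
  · rintro g e (he | he)
    · exact Or.inl (h.inv g e he)
    · obtain ⟨g', k, hk, rfl⟩ := mem_iUnion.1 he
      exact Or.inr (mem_iUnion.2 ⟨g * g', k, hk, mul_smul _ _ _⟩)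
  · refine ContinuousOn.union_of_isClosed (h.co.congr h2) ?_ h.cl hU
    refine (hN.lf K hK).continuousOn_iUnion hc fun g => ?_
    rw [continuousOn_iff_continuous_domRestrict]
    have hm : ∀ e : ((g • ·) '' K : Set E), g⁻¹ • e.1 ∈ K := by
      rintro ⟨_, k, hk, rfl⟩
      simpa using hk
    have : Continuous fun e : ((g • ·) '' K : Set E) => g • F ⟨g⁻¹ • e.1, hm e⟩ :=
      (hF.comp (((continuous_const_smul g⁻¹).comp continuous_subtype_val).subtype_mk _)).const_smul g
    refine this.congr fun e => ?_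
    rw [← h1]
    simp
  · rintro g e (he | he)
    · rw [h2 he, h2 (h.inv g e he), h.eqv g e he]
    · obtain ⟨g', k, hk, rfl⟩ := mem_iUnion.1 he
      have a1 := h1 (g * g') ⟨k, hk⟩
      have a2 := h1 g' ⟨k, hk⟩
      simp only at a1 a2 ⊢
      rw [← mul_smul, a1, a2, mul_smul]

theorem Pm.extend [T2Space E] [LindelofSpace E] (hN : Nice G E) (hA : AE (univ : Set E'))
    {D : Set E} {f : E → E'} (h : Pm G D f) :
    ∃ F : E → E', Continuous F ∧ (∀ (g : G) e, F (g • e) = g • F e) ∧ EqOn F f D := by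
  classical
  rcases isEmpty_or_nonempty E with hE | hE
  · exact ⟨f, continuous_of_discreteTopology, fun _ e => isEmptyElim e, fun _ _ => rfl⟩
  choose K hK hKc hKf using hN.nb
  obtain ⟨t, ht, -, hcov⟩ := isLindelof_univ.elim_nhds_subcover (fun e => interior (K e))
    (fun e _ => interior_mem_nhds.2 (hK e))
  have hne : t.Nonempty := by
    obtain ⟨e⟩ := hE
    obtain ⟨x, hx, -⟩ := mem_iUnion₂.1 (hcov (mem_univ e))
    exact ⟨x, hx⟩
  obtain ⟨s, hs⟩ := ht.exists_eq_range hne
  have st : ∀ (n : ℕ) (p : {p : Set E × (E → E') // Pm G p.1 p.2}),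
      ∃ q : {p : Set E × (E → E') // Pm G p.1 p.2},
        p.1.1 ⊆ q.1.1 ∧ K (s n) ⊆ q.1.1 ∧ EqOn q.1.2 p.1.2 p.1.1 := by
    intro n p
    obtain ⟨D', f', h1, h2, h3, h4⟩ := p.2.step hN hA (hKc (s n)) (hKf (s n))
    exact ⟨⟨(D', f'), h1⟩, h2, h3, h4⟩
  choose nx hn1 hn2 hn3 using st
  let q : ℕ → {p : Set E × (E → E') // Pm G p.1 p.2} :=
    fun n => Nat.rec ⟨(D, f), h⟩ (fun n p => nx n p) n
  have q1 : ∀ n, q (n + 1) = nx n (q n) := fun _ => rfl
  have mono : ∀ m n, m ≤ n → (q m).1.1 ⊆ (q n).1.1 ∧ EqOn (q n).1.2 (q m).1.2 (q m).1.1 := by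
    intro m n hmn
    induction n, hmn using Nat.le_induction with
    | base => exact ⟨subset_rfl, fun _ _ => rfl⟩
    | succ n _ ih =>
      rw [q1]
      exact ⟨ih.1.trans (hn1 n _), fun e he => (hn3 n _ (ih.1 he)).trans (ih.2 he)⟩
  have cov : ∀ e, ∃ n, (q n).1.1 ∈ 𝓝 e := by
    intro e
    obtain ⟨x, hx, he⟩ := mem_iUnion₂.1 (hcov (mem_univ e))
    rw [hs] at hx
    obtain ⟨n, rfl⟩ := hx
    exact ⟨n + 1, Filter.mem_of_superset (mem_interior_iff_mem_nhds.1 he) (hn2 n _)⟩
  choose N hNe using cov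
  let F : E → E' := fun e => (q (N e)).1.2 e
  have hF : ∀ n, EqOn F (q n).1.2 (q n).1.1 := by
    intro n e he
    have a1 := (mono _ _ (le_max_left n (N e))).2 he
    have a2 := (mono _ _ (le_max_right n (N e))).2 (mem_of_mem_nhds (hNe e))
    exact a2.symm.trans a1
  refine ⟨F, continuous_iff_continuousAt.2 fun e => ?_, fun g e => ?_, hF 0⟩
  · exact ((q (N e)).2.co.congr (hF _)).continuousAt (hNe e)
  · have he := mem_of_mem_nhds (hNe e)
    rw [hF _ ((q (N e)).2.inv g e he), hF _ he, (q (N e)).2.eqv g e he]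

theorem exists_eqv [T2Space E] [LindelofSpace E] (hN : Nice G E) (hA : AE (univ : Set E')) :
    ∃ F : E → E', Continuous F ∧ ∀ (g : G) e, F (g • e) = g • F e := by
  obtain ⟨e0, -⟩ := hA.1
  obtain ⟨F, h1, h2, -⟩ := Pm.extend (D := ∅) (f := fun _ : E => e0) hN hA
    ⟨isClosed_empty, fun _ _ h => h.elim, continuousOn_empty _, fun _ _ h => h.elim⟩
  exact ⟨F, h1, h2⟩

theorem exists_homotopy [T2Space E] [SecondCountableTopology E] (hN : Nice G E)
    (hA : AE (univ : Set E')) {F0 F1 : E → E'} (c0 : Continuous F0) (c1 : Continuous F1)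
    (e0 : ∀ (g : G) e, F0 (g • e) = g • F0 e) (e1 : ∀ (g : G) e, F1 (g • e) = g • F1 e) :
    ∃ H : unitInterval × E → E', Continuous H ∧ (∀ (g : G) t e, H (t, g • e) = g • H (t, e)) ∧
      (∀ e, H (0, e) = F0 e) ∧ ∀ e, H (1, e) = F1 e := by
  classical
  letI : MulAction G unitInterval :=
    { smul := fun _ t => t, one_smul := fun _ => rfl, mul_smul := fun _ _ _ => rfl }
  have : ContinuousConstSMul G unitInterval := ⟨fun _ => continuous_id⟩
  have hN' : Nice G (unitInterval × E) := by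
    refine ⟨fun z => ?_, fun K hK => ?_⟩
    · obtain ⟨K, h1, h2, h3⟩ := hN.nb z.2
      exact ⟨univ ×ˢ K, prod_mem_nhds Filter.univ_mem h1, isCompact_univ.prod h2,
        fun g k hk hg => h3 g k.2 hk.2 hg.2⟩
    · refine ((hN.lf _ (hK.image continuous_snd)).preimage_continuous continuous_snd).subset ?_
      rintro g _ ⟨z, hz, rfl⟩
      exact ⟨z.2, ⟨z, hz, rfl⟩, rfl⟩
  have z0 : IsClosed {z : unitInterval × E | z.1 = 0} := isClosed_eq continuous_fst continuous_const
  have z1 : IsClosed {z : unitInterval × E | z.1 = 1} := isClosed_eq continuous_fst continuous_const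
  obtain ⟨H, h1, h2, h3⟩ := Pm.extend (G := G) (D := {z | z.1 = 0} ∪ {z | z.1 = 1})
    (f := fun z : unitInterval × E => if z.1 = 0 then F0 z.2 else F1 z.2) hN' hA
    ⟨z0.union z1, fun g z hz => hz, by
      refine ContinuousOn.union_of_isClosed ?_ ?_ z0 z1
      · exact (c0.comp continuous_snd).continuousOn.congr fun z hz => if_pos hz
      · refine (c1.comp continuous_snd).continuousOn.congr fun z hz => if_neg ?_
        rw [show z.1 = 1 from hz]; exact one_ne_zero, by
      intro g z _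
      change (if z.1 = 0 then F0 (g • z.2) else F1 (g • z.2)) = _
      split_ifs
      · exact e0 _ _
      · exact e1 _ _⟩
  refine ⟨H, h1, fun g t e => h2 g (t, e), fun e => ?_, fun e => ?_⟩
  · rw [h3 (Or.inl rfl)]; exact if_pos rfl
  · rw [h3 (Or.inr rfl)]; exact if_neg one_ne_zero

end

/-- A second countable locally compact absolute extensor is contractible. -/
theorem contractible_of_AE {E : Type} [TopologicalSpace E] [T2Space E] [LocallyCompactSpace E]
    [SecondCountableTopology E] (hA : AE (univ : Set E)) : ContractibleSpace E := by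
  letI : MulAction PUnit E :=
    { smul := fun _ t => t, one_smul := fun _ => rfl, mul_smul := fun _ _ _ => rfl }
  have : ContinuousConstSMul PUnit E := ⟨fun _ => continuous_id⟩
  have hN : Nice PUnit E := ⟨fun e => by
    obtain ⟨K, h1, h2⟩ := exists_compact_mem_nhds e
    exact ⟨K, h2, h1, fun _ _ _ _ => rfl⟩, fun _ _ => locallyFinite_of_finite _⟩
  obtain ⟨e0, -⟩ := hA.1
  obtain ⟨H, h1, -, h2, h3⟩ := exists_homotopy (G := PUnit) hN hA (F0 := id) (F1 := fun _ => e0)
    continuous_id continuous_const (fun _ _ => rfl) (fun _ _ => rfl)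
  rw [contractible_iff_id_nullhomotopic]
  exact ⟨e0, ⟨{ toFun := H, continuous_toFun := h1, map_zero_left := h2, map_one_left := h3 }⟩⟩

end Vale.Agent.P203S
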