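import Vale.Agent.P203S46.Sal
import Vale.Agent.P203S46.Ball

/-! The faces of a Coxeter cell span a complete simplicial fan. -/

set_option linter.all false

namespace Vale.Agent.P203S

open Set Topology Function Vale.Agent.P203 Vale.Agent.P203.Top Vale.Agent.P203.Sph
  Vale.Agent.P203.Tits Vale.Agent.P203.Gar Vale.Agent.P203.Cox

variable {S : Type} {M : CoxeterMatrix S}

open Classical in
/-- the indicator function of the complement of `T` -/
noncomputable def om (T : Finset S) : S → ℝ := fun s => if s ∈ T then 0 else 1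

theorem om_nn (T : Finset S) (s : S) : 0 ≤ om T s := by
  unfold om; split_ifs <;> norm_num

theorem om_mem {T : Finset S} {s : S} (h : s ∈ T) : om T s = 0 := by simp [om, h]

theorem om_not {T : Finset S} {s : S} (h : s ∉ T) : om T s = 1 := by simp [om, h]

/-- the action on functionals -/
noncomputable abbrev da (w : M.Group) : (S → ℝ) →ₗ[ℝ] (S → ℝ) := dact M.toCoxeterSystem w

theorem WT_mono {T U : Finset S} (h : T ⊆ U) {w : M.Group}
    (hw : w ∈ parab M.toCoxeterSystem (T : Set S)) : w ∈ WT M U :=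
  parab_mono (cs := M.toCoxeterSystem) (T := (T : Set S)) (U := (U : Set S))
    (by exact_mod_cast h) hw

theorem da_fix {T : Finset S} {w : M.Group} (hw : w ∈ WT M T) {x : S → ℝ}
    (hx : ∀ t ∈ T, x t = 0) : da w x = x :=
  dact_of_mem_par (cs := M.toCoxeterSystem) (T := (T : Set S)) hw hx

/-- the vector of a cell -/
noncomputable def cv (c : SCell M) : S → ℝ := da c.u (om c.T)

theorem cv_eq {c : SCell M} {u : M.Group} (h : c.u⁻¹ * u ∈ WT M c.T) : cv c = da u (om c.T) := by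
  have h1 : da (c.u⁻¹ * u) (om c.T) = om c.T := da_fix h fun t ht => om_mem ht
  rw [cv, ← h1, ← dact_mul_apply, mul_inv_cancel_left, h1]

variable {T : Finset S} {hT : Spherical M T} {F : Finset (SCell M)}

theorem le_top {c : SCell M} : SLe M c ⟨1, T, hT⟩ ↔
    c.T ⊆ T ∧ c.u ∈ WT M T ∧ IsMin M.toCoxeterSystem (c.T : Set S) c.u := by
  rw [SLe_iff', MinIn, inv_one, one_mul]
  rfl

theorem eq_top {c : SCell M} (h : SLe M c ⟨1, T, hT⟩) (e : T ⊆ c.T) : c = ⟨1, T, hT⟩ := by
  obtain ⟨h1, h2, h3⟩ := le_top.1 h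
  have e' : c.T = T := subset_antisymm h1 e
  refine SCell.ext (MinIn.eq_one (T := (T : Set S)) ⟨h2, ?_⟩) e'
  rw [← e']; exact h3

variable [Finite S]

theorem bottom (hF : ∀ c, c ∈ F ↔ SLe M c ⟨1, T, hT⟩) {y : SCell M → ℝ}
    (hy : Cn (SLe M) ⟨1, T, hT⟩ y) (hn : y ≠ 0) :
    ∃ c0, y c0 ≠ 0 ∧ ∃ z : S → ℝ, (∀ s, 0 ≤ z s) ∧ (∀ s, z s = 0 ↔ s ∈ c0.T) ∧
      Phi F cv y = da c0.u z := by
  have hs : support y ⊆ F := fun c hc => (hF c).2 (hy.le c hc)
  obtain ⟨⟨c0, h0, h1⟩, -⟩ := exists_ext lf (F.finite_toSet.subset hs) hy.ch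
    (support_nonempty_iff.2 hn)
  have nn : ∀ s, ∀ c ∈ F, 0 ≤ y c * om c.T s := fun s c _ => mul_nonneg (hy.nn c) (om_nn _ _)
  refine ⟨c0, h0, ∑ c ∈ F, y c • om c.T, fun s => ?_, fun s => ?_, ?_⟩
  · rw [Finset.sum_apply]; exact Finset.sum_nonneg (nn s)
  · rw [Finset.sum_apply]
    constructor
    · intro a
      have := (Finset.sum_eq_zero_iff_of_nonneg (nn s)).1 a c0 (hs h0)
      by_contra b
      rw [om_not b, mul_one] at this
      exact h0 this
    · intro a
      refine Finset.sum_eq_zero fun c _ => ?_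
      by_cases b : y c = 0
      · simp [b]
      · simp [om_mem ((h1 c b).1 a)]
  · rw [map_sum]
    refine Finset.sum_congr rfl fun c _ => ?_
    by_cases b : y c = 0
    · simp [b]
    · rw [map_smul, cv_eq (h1 c b).2.1]

theorem bottom_eq {c c' : SCell M} (hc : SLe M c ⟨1, T, hT⟩) (hc' : SLe M c' ⟨1, T, hT⟩)
    {z z' : S → ℝ} (hz : ∀ s, 0 ≤ z s) (hz' : ∀ s, 0 ≤ z' s) (h0 : ∀ s, z s = 0 ↔ s ∈ c.T)
    (h0' : ∀ s, z' s = 0 ↔ s ∈ c'.T) (e : ∀ t ∈ T, da c.u z t = da c'.u z' t) : c = c' := by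
  classical
  have := Fintype.ofFinite S
  obtain ⟨a1, a2, a3⟩ := le_top.1 hc
  obtain ⟨b1, b2, b3⟩ := le_top.1 hc'
  set d := da c'.u z' - da c.u z with hd
  have d0 : ∀ t ∈ T, d t = 0 := fun t ht => by simp [hd, e t ht]
  set l := ∑ s, |d s| with hl
  have l0 : ∀ s, d s ≤ l := fun s => (le_abs_self _).trans
    (Finset.single_le_sum (f := fun s => |d s|) (fun _ _ => abs_nonneg _) (Finset.mem_univ s))
  have l1 : 0 ≤ l := Finset.sum_nonneg fun _ _ => abs_nonneg _
  have o0 : ∀ t ∈ T, om T t = 0 := fun t ht => om_mem ht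
  have e1 : ev M.toCoxeterSystem c.u (da c.u z + l • om T) = z + l • om T := by
    rw [ev_eq_dact, map_add, map_smul, dact_inv_apply_self]
    exact congrArg (fun x => z + l • x) (da_fix (inv_mem a2) o0)
  have e2 : ev M.toCoxeterSystem c'.u (da c.u z + l • om T) = z' - d + l • om T := by
    have : da c.u z = da c'.u z' - d := by rw [hd]; abel
    rw [ev_eq_dact, this, map_add, map_smul, map_sub, dact_inv_apply_self]
    exact congrArg₂ (fun x y => z' - x + l • y) (da_fix (inv_mem b2) d0) (da_fix (inv_mem b2) o0)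
  obtain ⟨f1, f2⟩ := facet_unique (cs := M.toCoxeterSystem) (u := c.u) (u' := c'.u)
    (x := da c.u z + l • om T)
    (fun i => by rw [e1]; exact add_nonneg (hz i) (mul_nonneg l1 (om_nn _ _))) (fun i => by
      rw [e2]
      by_cases hi : i ∈ T
      · simp [om_mem hi, d0 i hi, hz' i]
      · have := hz' i
        have := l0 i
        simp only [Pi.add_apply, Pi.sub_apply, Pi.smul_apply, om_not hi, smul_eq_mul]
        linarith)
  rw [e1] at f1
  rw [e1, e2] at f2
  have zz : ∀ t ∈ T, z' t = z t := fun t ht => by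
    have := congrFun f2 t
    simpa [d0 t ht] using this
  have eT : c.T = c'.T := Finset.ext fun t =>
    ⟨fun h => (h0' t).1 ((zz t (a1 h)).trans ((h0 t).2 h)),
      fun h => (h0 t).1 ((zz t (b1 h)).symm.trans ((h0' t).2 h))⟩
  have f3 : c.u⁻¹ * c'.u ∈ parab M.toCoxeterSystem (c.T : Set S) := by
    refine par_mono (fun i hi => (h0 i).1 ?_) f1
    have h1 : z i + l * om T i = 0 := hi
    have := mul_nonneg l1 (om_nn T i)
    linarith [hz i]
  rw [← eT] at b3
  exact SCell.ext (min_mul_unique a3 b3 f3 (mul_inv_cancel_left _ _).symm).1.symm eT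

theorem Cn.sub {P : Type} [DecidableEq P] {r : P → P → Prop} {τ c : P} {y : P → ℝ}
    (h : Cn r τ y) {m : ℝ} (h0 : 0 < m) (hm : m ≤ y c) :
    Cn r τ (y - Pi.single c m) ∧ support (y - Pi.single c m) ⊆ support y := by
  have hs : support (y - Pi.single c m) ⊆ support y := fun d hd => by
    by_cases e : d = c
    · subst e; exact (h0.trans_le hm).ne'
    · simpa [e] using hd
  refine ⟨⟨fun d => ?_, fun d hd => h.le d (hs hd), h.ch.mono hs, ?_⟩, hs⟩
  · by_cases e : d = c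
    · subst e; simpa using hm
    · simpa [e] using h.nn d
  · by_contra a
    exact hs a h.top

theorem fan_inj (hF : ∀ c, c ∈ F ↔ SLe M c ⟨1, T, hT⟩) (n : ℕ) : ∀ y y' : SCell M → ℝ,
    (support y).ncard + (support y').ncard = n → Cn (SLe M) ⟨1, T, hT⟩ y →
    Cn (SLe M) ⟨1, T, hT⟩ y' → (∀ t ∈ T, Phi F cv y t = Phi F cv y' t) → y = y' := by
  classical
  have zero : ∀ y : SCell M → ℝ, Cn (SLe M) ⟨1, T, hT⟩ y → (∀ t ∈ T, Phi F cv y t = 0) →
      y = 0 := by
    intro y hy e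
    by_contra hn
    obtain ⟨c, h1, z, h2, h3, h4⟩ := bottom hF hy hn
    have := bottom_eq (hy.le c h1) (lf.refl ⟨1, T, hT⟩) h2 (om_nn T) h3
      (fun s => ⟨fun a => by_contra fun b => by simp [om_not b] at a, om_mem⟩) (fun t ht => by
        rw [← h4, e t ht, dact_one_apply, om_mem ht])
    exact h1 (this ▸ hy.top)
  induction n using Nat.strong_induction_on with
  | _ n ih =>
    intro y y' hn hy hy' e
    by_cases a : y = 0
    · subst a
      exact (zero y' hy' fun t ht => by rw [← e t ht]; simp [Phi]).symm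
    by_cases a' : y' = 0
    · subst a'
      exact zero y hy fun t ht => by rw [e t ht]; simp [Phi]
    obtain ⟨c, h1, z, h2, h3, h4⟩ := bottom hF hy a
    obtain ⟨c', h1', z', h2', h3', h4'⟩ := bottom hF hy' a'
    obtain rfl := bottom_eq (hy.le c h1) (hy'.le c' h1') h2 h2' h3 h3'
      (fun t ht => by rw [← h4, ← h4', e t ht])
    have p1 : 0 < y c := lt_of_le_of_ne (hy.nn c) h1.symm
    have p2 : 0 < y' c := lt_of_le_of_ne (hy'.nn c) h1'.symm
    obtain ⟨b1, b2⟩ := hy.sub (lt_min p1 p2) (min_le_left _ _)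
    obtain ⟨b1', b2'⟩ := hy'.sub (lt_min p1 p2) (min_le_right _ _)
    have f : (support y).Finite := F.finite_toSet.subset fun c hc => (hF c).2 (hy.le c hc)
    have f' : (support y').Finite := F.finite_toSet.subset fun c hc => (hF c).2 (hy'.le c hc)
    have n1 := ncard_le_ncard b2 f
    have n2 := ncard_le_ncard b2' f'
    have n3 : (support (y - Pi.single c (min (y c) (y' c)))).ncard +
        (support (y' - Pi.single c (min (y c) (y' c)))).ncard < n := by
      rcases le_total (y c) (y' c) with k | k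
      · have := ncard_lt_ncard ((ssubset_iff_of_subset b2).2 ⟨c, h1, by simp [k]⟩) f
        omega
      · have := ncard_lt_ncard ((ssubset_iff_of_subset b2').2 ⟨c, h1', by simp [k]⟩) f'
        omega
    refine sub_left_injective (ih _ n3 _ _ rfl b1 b1' fun t ht => ?_)
    have g : ∀ y : SCell M → ℝ, ∀ u, Phi F cv (y - u) = Phi F cv y - Phi F cv u := fun y u => by
      rw [eq_sub_iff_add_eq, ← Phi_add, sub_add_cancel]
    rw [g, g, Pi.sub_apply, Pi.sub_apply, e t ht]

theorem fan_aux (hF : ∀ c, c ∈ F ↔ SLe M c ⟨1, T, hT⟩) {u : M.Group} (hu : u ∈ WT M T) (n : ℕ) :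
    ∀ z : S → ℝ, {t | t ∈ T ∧ z t ≠ 0}.ncard = n → (∀ t ∈ T, 0 ≤ z t) →
    ∃ y, Cn (SLe M) ⟨1, T, hT⟩ y ∧ (∀ t ∈ T, Phi F cv y t = da u z t) ∧
      ∀ c, y c ≠ 0 → c.u⁻¹ * u ∈ WT M c.T ∧ ∀ t ∈ T, z t = 0 → t ∈ c.T := by
  classical
  induction n using Nat.strong_induction_on with
  | _ n ih =>
    intro z hn hz
    by_cases a : ∀ t ∈ T, z t = 0
    · refine ⟨0, Cn.zero _, fun t ht => ?_, fun c h => (h rfl).elim⟩
      rw [da_fix hu a, a t ht]; simp [Phi]
    obtain ⟨t1, h1, h2⟩ := Finset.exists_min_image (T.filter fun t => z t ≠ 0) z (by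
      push Not at a
      obtain ⟨t, b, c⟩ := a
      exact ⟨t, Finset.mem_filter.2 ⟨b, c⟩⟩)
    obtain ⟨h1, h1'⟩ := Finset.mem_filter.1 h1
    have m0 : 0 < z t1 := lt_of_le_of_ne (hz t1 h1) h1'.symm
    set T0 := T.filter fun t => z t = 0 with hT0
    have s0 : T0 ⊆ T := Finset.filter_subset _ _
    have t0 : t1 ∉ T0 := fun b => h1' (Finset.mem_filter.1 b).2
    have k0 : ∀ t ∈ T, z t = 0 → (z - z t1 • om T0) t = 0 := fun t ht b => by
      simp [b, om_mem (show t ∈ T0 from Finset.mem_filter.2 ⟨ht, b⟩)]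
    obtain ⟨y, y1, y2, y3⟩ := ih _ (by
      rw [← hn]
      refine ncard_lt_ncard ((ssubset_iff_of_subset ?_).2 ⟨t1, ⟨h1, h1'⟩, ?_⟩) (toFinite _)
      · exact fun t ht => ⟨ht.1, fun b => ht.2 (k0 t ht.1 b)⟩
      · simp [om_not t0]) (z - z t1 • om T0) rfl (fun t ht => by
      by_cases b : z t = 0
      · exact (k0 t ht b).ge
      · have := h2 t (Finset.mem_filter.2 ⟨ht, b⟩)
        simpa [om_not (show t ∉ T0 from fun k => b (Finset.mem_filter.1 k).2)] using this)
    obtain ⟨u0, v, g1, g2, g3⟩ := exists_min_mul (cs := M.toCoxeterSystem) (T0 : Set S) u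
    have g4 : u0⁻¹ * u = v := by rw [g3, inv_mul_cancel_left]
    have g5 : u0 = u * v⁻¹ := by rw [g3, mul_inv_cancel_right]
    let c0 : SCell M := ⟨u0, T0, Spherical.subset hT s0⟩
    have c1 : SLe M c0 ⟨1, T, hT⟩ := le_top.2 ⟨s0, by
      change u0 ∈ WT M T
      rw [g5]
      exact mul_mem hu (inv_mem (WT_mono s0 g2)), g1⟩
    have c2 : ∀ c, y c ≠ 0 → SLe M c0 c := fun c hc => by
      have i1 : T0 ⊆ c.T := fun t ht => (y3 c hc).2 t (s0 ht)
        (k0 t (s0 ht) (Finset.mem_filter.1 ht).2)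
      have i2 : c.u⁻¹ * u0 ∈ WT M c.T := by
        rw [g5, ← mul_assoc]
        exact mul_mem (y3 c hc).1 (inv_mem (WT_mono i1 g2))
      refine SLe_iff'.2 ⟨i1, i2, fun t ht => ?_⟩
      refine (lt_min_mul_iff (le_top.1 (y1.le c hc)).2.2 i2 (i1 ht)).1 ?_
      rw [mul_inv_cancel_left]
      exact g1 t ht
    have c4 : c0.u⁻¹ * u ∈ WT M c0.T := by
      change u0⁻¹ * u ∈ WT M T0
      rw [g4]; exact WT_mono subset_rfl g2
    have c3 : c0 ≠ ⟨1, T, hT⟩ := fun e => t0 (by
      have : T0 = T := congrArg SCell.T e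
      rw [this]; exact h1)
    have zs : ∀ c, (y + Pi.single c0 (z t1) : SCell M → ℝ) c ≠ 0 → c = c0 ∨ y c ≠ 0 := fun c hc => by
      by_contra b
      push Not at b
      simp [b.1, b.2] at hc
    refine ⟨y + Pi.single c0 (z t1), ⟨fun c => add_nonneg (y1.nn c) ?_, fun c hc => ?_,
      fun c hc d hd hne => ?_, ?_⟩, fun t ht => ?_, fun c hc => ?_⟩
    · rw [Pi.single_apply]; split_ifs <;> linarith
    · exact (zs c hc).elim (fun e => e ▸ c1) (y1.le c)
    · rcases zs c hc with rfl | b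
      · exact Or.inl (c2 d ((zs d hd).resolve_left hne.symm))
      · rcases zs d hd with rfl | b'
        · exact Or.inr (c2 c b)
        · exact y1.ch b b' hne
    · simp [y1.top, c3.symm]
    · rw [Phi_add, Phi_single _ ((hF _).2 c1), Pi.add_apply, y2 t ht,
        cv_eq (c := c0) (u := u) c4, map_sub, map_smul]
      simp [c0]
    · rcases zs c hc with rfl | b
      · exact ⟨c4,
          fun t ht e => Finset.mem_filter.2 ⟨ht, e⟩⟩
      · exact ⟨(y3 c b).1, fun t ht e => (y3 c b).2 t ht (k0 t ht e)⟩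

theorem fan_surj (hF : ∀ c, c ∈ F ↔ SLe M c ⟨1, T, hT⟩) (a : S → ℝ) :
    ∃ y, Cn (SLe M) ⟨1, T, hT⟩ y ∧ ∀ t ∈ T, Phi F cv y t = a t := by
  obtain ⟨u, hu, h⟩ := exists_dominant (cs := M.toCoxeterSystem) (T := (T : Set S)) hT a
  obtain ⟨y, h1, h2, -⟩ := fan_aux hF hu _ _ rfl h
  exact ⟨y, h1, fun t ht => by rw [h2 t ht, dact_ev_self]⟩

end Vale.Agent.P203S
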