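import Vale.Agent.P203S46.Heq
import Vale.Agent.P203.Top.KPiOne
import Vale.Agent.P203.H895.Facts

/-! The universal covering of a space that is stratified by the Salvetti poset. -/

set_option linter.all false

namespace Vale.Agent.P203S

open Set Topology Function Vale.Agent.P203 Vale.Agent.P203.Top Vale.Agent.P203.Sph
  Vale.Agent.P203.Tits Vale.Agent.P203.Gar

variable {S : Type} {M : CoxeterMatrix S} {Y X : Type} [TopologicalSpace Y] [TopologicalSpace X]
  [MulAction M.Group Y]

/-- equivariant stratifications by the cells of `W` -/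
structure Strat (p : Y → WCell M) (q : Y → X) : Prop where
  cont : ∀ w : M.Group, Continuous fun y : Y => w • y
  eqv : ∀ (w : M.Group) y, p (w • y) = (p y).translate w
  surj : Surjective p
  op : ∀ c, IsOpen {y | p y ≤ c}
  ae : ∀ c, AE {y | p y ≤ c}
  quot : IsQuotientMap q
  orb : ∀ {y y'}, q y = q y' ↔ y ∈ MulAction.orbit M.Group y'

/-- left translation of the cells of the Artin group -/
def aMul (g : ArtinGroup M) (a : ACell M) : ACell M := ⟨g * a.g, a.T, a.sph⟩

theorem aMul_mono (g : ArtinGroup M) {a b : ACell M} (h : a ≤ b) : aMul g a ≤ aMul g b := by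
  obtain ⟨h1, w, hw, e⟩ := h
  exact ⟨h1, w, hw, by simp only [aMul]; rw [e, mul_assoc]⟩

theorem Iic_finite [Finite S] (a : ACell M) : (Iic a).Finite := by
  refine Finite.of_finite_image (f := fun b => (b.g, b.T))
    (((vert_finite a).prod finite_univ).subset ?_) ?_
  · rintro _ ⟨b, hb, rfl⟩
    exact ⟨vert_subset_of_le hb (g_mem_vert b), mem_univ _⟩
  · intro b _ c _ e
    exact ACell.ext (congrArg Prod.fst e) (congrArg Prod.snd e)

theorem countable_artin [Finite S] : Countable (ArtinGroup M) := by
  have : Countable (FreeGroup S) := inferInstanceAs (Countable (Quot _))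
  exact inferInstanceAs (Countable (Quotient _))

theorem countable_acell [Finite S] : Countable (ACell M) := by
  have := countable_artin (M := M)
  exact Function.Injective.countable (f := fun b : ACell M => (b.g, b.T)) fun b c e =>
    ACell.ext (congrArg Prod.fst e) (congrArg Prod.snd e)

variable {p : Y → WCell M} {q : Y → X}

/-- the action of the Artin group on the total space -/
@[reducible] noncomputable def Strat.act (h : Strat p q) :
    MulAction (ArtinGroup M) (Tot p (cellProj (M := M))) where
  smul g z := ⟨(toW M g • z.pr, aMul g z.idx), by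
    rw [h.eqv, z.h]
    exact WCell.ext (map_mul _ _ _).symm rfl⟩
  one_smul z := Tot.ext (by
    change toW M 1 • z.pr = _
    rw [map_one, one_smul]) (ACell.ext (one_mul _) rfl)
  mul_smul g g' z := Tot.ext (by
    change toW M (g * g') • z.pr = toW M g • toW M g' • z.pr
    rw [map_mul, mul_smul]) (ACell.ext (mul_assoc _ _ _) rfl)

theorem V_nhds (z : Tot p (cellProj (M := M))) : V p cellProj (Iic z.idx) ∈ 𝓝 z :=
  (V_isOpen (isLowerSet_Iic _)).mem_nhds (le_refl z.idx)

theorem tot_t2 [T2Space Y] : T2Space (Tot p (cellProj (M := M))) := by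
  refine t2Space_iff_nhds.2 fun z z' hne => ?_
  by_cases e : z.pr = z'.pr
  · refine ⟨_, V_nhds z, _, V_nhds z', disjoint_left.2 fun b h1 h2 => hne (Tot.ext e ?_)⟩
    refine (posetCover_cellProj.up b.idx (cellProj z.idx) (posetCover_cellProj.mono h1)).unique
      ⟨h1, rfl⟩ ⟨h2, ?_⟩
    rw [← z'.h, ← e, z.h]
  · obtain ⟨U, hU, U', hU', hd⟩ := t2Space_iff_nhds.1 inferInstance e
    exact ⟨_, Tot.continuous_pr.continuousAt hU, _, Tot.continuous_pr.continuousAt hU',
      hd.preimage _⟩

theorem tot_sc [Finite S] [SecondCountableTopology Y] :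
    SecondCountableTopology (Tot p (cellProj (M := M))) := by
  have := countable_acell (M := M)
  letI : TopologicalSpace (ACell M) := Topology.lowerSet _
  have : SecondCountableTopology (ACell M) := by
    refine TopologicalSpace.IsTopologicalBasis.secondCountableTopology (b := range Iic) ?_
      (countable_range _)
    refine TopologicalSpace.isTopologicalBasis_of_isOpen_of_nhds ?_ ?_
    · rintro _ ⟨a, rfl⟩
      exact isLowerSet_Iic a
    · intro a u ha hu
      exact ⟨_, ⟨a, rfl⟩, le_refl a, fun b hb => (show IsLowerSet u from hu) hb ha⟩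
  have hi : IsInducing fun z : Tot p (cellProj (M := M)) => (z.pr, z.idx) := by
    refine ⟨?_⟩
    rw [instTopologicalSpaceProd, induced_inf, induced_compose, induced_compose]
    rfl
  exact hi.secondCountableTopology

theorem tot_lc [T2Space Y] [LocallyCompactSpace Y] (h : Strat p q) :
    LocallyCompactSpace (Tot p (cellProj (M := M))) := by
  have := tot_t2 (p := p)
  have : WeaklyLocallyCompactSpace (Tot p (cellProj (M := M))) := ⟨fun z => by
    obtain ⟨e, hz, he⟩ := (isCoveringMap_pr posetCover_cellProj h.op).isLocalHomeomorph z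
    obtain ⟨K, h1, h2, h3⟩ := local_compact_nhds (e.open_target.mem_nhds (e.map_source hz))
    refine ⟨e.symm '' K, h3.image_of_continuousOn (e.continuousOn_symm.mono h2), ?_⟩
    have := e.symm.image_mem_nhds (e.map_source hz) h1
    rwa [e.left_inv hz] at this⟩
  infer_instance

theorem idx_finite [Finite S] {K : Set (Tot p (cellProj (M := M)))} (hK : IsCompact K) :
    (Tot.idx '' K).Finite := by
  obtain ⟨t, -, ht⟩ := hK.elim_nhds_subcover (fun z => V p cellProj (Iic z.idx))
    fun z _ => V_nhds z
  refine (t.finite_toSet.biUnion fun z _ => Iic_finite z.idx).subset ?_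
  rintro _ ⟨z, hz, rfl⟩
  obtain ⟨y, hy, a⟩ := mem_iUnion₂.1 (ht hz)
  exact mem_iUnion₂.2 ⟨y, hy, a⟩

theorem Strat.ae_tot [Finite S] (h : Strat p q) : AE (univ : Set (Tot p (cellProj (M := M)))) := by
  classical
  have := Fintype.ofFinite S
  exact KPi.good_univ M (Dg.H895.twistFacts _ _)
    (goodTheory_AE posetCover_cellProj h.op (fun _ => h.ae _) h.surj)

theorem Strat.cov [Finite S] [T2Space Y] [LocallyCompactSpace Y] (h : Strat p q) :
    letI := h.act
    IsQuotientCoveringMap (q ∘ (Tot.pr : Tot p (cellProj (M := M)) → Y)) (ArtinGroup M) ∧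
      Nice (ArtinGroup M) (Tot p (cellProj (M := M))) := by
  letI := h.act
  have := tot_t2 (p := p)
  have := tot_lc h
  have : ContinuousConstSMul (ArtinGroup M) (Tot p (cellProj (M := M))) := ⟨fun g => by
    rw [← continuousOn_univ]
    refine continuousOn_tot ((h.cont _).comp Tot.continuous_pr).continuousOn fun z _ => ?_
    filter_upwards [mem_nhdsWithin_of_mem_nhds (V_nhds z)] with z' hz' using aMul_mono g hz'⟩
  have : ProperlyDiscontinuousSMul (ArtinGroup M) (Tot p (cellProj (M := M))) := ⟨fun hK hL => by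
    refine (((idx_finite hK).prod (idx_finite hL)).image fun x => x.2.g * x.1.g⁻¹).subset ?_
    rintro g ⟨_, ⟨z, hz, rfl⟩, hz'⟩
    exact ⟨(z.idx, (g • z).idx), ⟨⟨z, hz, rfl⟩, ⟨_, hz', rfl⟩⟩, mul_inv_cancel_right _ _⟩⟩
  have : IsCancelSMul (ArtinGroup M) (Tot p (cellProj (M := M))) :=
    isCancelSMul_iff_eq_one_of_smul_eq.2 fun g z e =>
      mul_eq_right.1 (congrArg (fun z => z.idx.g) e)
  have hs : Surjective (Tot.pr : Tot p (cellProj (M := M)) → Y) := fun y => by
    obtain ⟨a, ha⟩ := cellProj_surjective (p y)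
    exact ⟨⟨(y, a), ha.symm⟩, rfl⟩
  have hq : IsQuotientMap (q ∘ (Tot.pr : Tot p (cellProj (M := M)) → Y)) :=
    h.quot.comp ((isCoveringMap_pr posetCover_cellProj h.op).isOpenMap.isQuotientMap
      Tot.continuous_pr hs)
  have hc : IsQuotientCoveringMap (q ∘ (Tot.pr : Tot p (cellProj (M := M)) → Y))
      (ArtinGroup M) := by
    refine hq.isQuotientCoveringMap_of_properlyDiscontinuousSMul fun {z z'} => ?_
    simp only [comp_apply, h.orb]
    constructor
    · rintro ⟨w, hw⟩
      have e : cellProj z.idx = (cellProj z'.idx).translate w := by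
        rw [← z.h, ← z'.h, ← h.eqv, ← hw]
      have e1 : toW M z.idx.g = w * toW M z'.idx.g := congrArg WCell.g e
      refine ⟨z.idx.g * z'.idx.g⁻¹, Tot.ext ?_ (ACell.ext (inv_mul_cancel_right _ _) ?_)⟩
      · change toW M (z.idx.g * z'.idx.g⁻¹) • z'.pr = z.pr
        rw [map_mul, map_inv, e1, mul_inv_cancel_right]
        exact hw
      · exact (congrArg WCell.T e).symm
    · rintro ⟨g, rfl⟩
      exact ⟨toW M g, rfl⟩
  exact ⟨hc, nice_of hc⟩

theorem Strat.kpi [Finite S] [T2Space Y] [LocallyCompactSpace Y] [SecondCountableTopology Y]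
    (h : Strat p q) : IsKPiOne (ArtinGroup M) X := by
  letI := h.act
  have := tot_t2 (p := p)
  have := tot_lc h
  have := tot_sc (p := p)
  exact P203S.kpi h.cov.1 h.ae_tot

theorem Strat.heq [Finite S] [T2Space Y] [LocallyCompactSpace Y] [SecondCountableTopology Y]
    {Y' X' : Type} [TopologicalSpace Y'] [TopologicalSpace X'] [MulAction M.Group Y']
    [T2Space Y'] [LocallyCompactSpace Y'] [SecondCountableTopology Y'] {p' : Y' → WCell M}
    {q' : Y' → X'} (h : Strat p q) (h' : Strat p' q') :
    Nonempty (ContinuousMap.HomotopyEquiv X X') := by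
  letI := h.act
  letI := h'.act
  have := tot_t2 (p := p)
  have := tot_sc (p := p)
  have := tot_t2 (p := p')
  have := tot_sc (p := p')
  exact P203S.heq h.cov.1 h'.cov.1 h.cov.2 h'.cov.2 h.ae_tot h'.ae_tot

theorem strat_Y [Finite S] : Strat (strat : complementSet M → WCell M)
    (Quotient.mk (MulAction.orbitRel M.Group (complementSet M))) where
  cont w := continuous_const_smul w
  eqv := strat_smul
  surj := strat_surjective
  op := isOpen_strat_le
  ae := AE_strat_le
  quot := isQuotientMap_quotient_mk'
  orb := Quotient.eq''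

end Vale.Agent.P203S
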