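import Vale.Agent.P203.Defs
import Vale.Agent.P203.Top.Stmt
import Mathlib.AlgebraicTopology.FundamentalGroupoid.FundamentalGroup
import Mathlib.Topology.Covering.Basic
import Mathlib.Topology.CWComplex.Classical.Basic
import Mathlib.Topology.Homotopy.Contractible

/-! P203. The Salvetti complex as a topological space, and Eilenberg-MacLane spaces. -/

namespace Vale.Agent.P203S

open Vale.Agent.P203 Function

/-- The geometric realisation of the order complex of a partial order `r` on `P`: its points are
the convex combinations of the finite chains. -/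
structure Rz {P : Type} (r : P → P → Prop) : Type where
  /-- the weights -/
  wt : P → ℝ
  nn : ∀ c, 0 ≤ wt c
  fin : (support wt).Finite
  chain : IsChain r (support wt)
  sum : ∑ᶠ c, wt c = 1

/-- The weak topology: the final topology for the inclusions of the closed simplices, one for each
finite chain `σ`, each with its Euclidean topology. -/
instance instTopRz {P : Type} (r : P → P → Prop) : TopologicalSpace (Rz r) :=
  ⨆ (σ : Finset P) (_ : IsChain r (σ : Set P)),
    TopologicalSpace.coinduced (fun x : {x : Rz r // support x.wt ⊆ σ} => x.1)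
      (TopologicalSpace.induced (fun x => x.1.wt) Pi.topologicalSpace)

variable {S : Type} (M : CoxeterMatrix S)

/-- The standard parabolic subgroup `W_T`. -/
abbrev WT (T : Finset S) : Subgroup M.Group := Subgroup.closure (M.simple '' (T : Set S))

/-- The pairs `(u, T)` with `u` in `W` and `T` spherical. -/
@[ext] structure SCell where
  /-- the element of `W` -/
  u : M.Group
  /-- the spherical subset -/
  T : Finset S
  sph : Spherical M T

/-- The Salvetti order: `(u, T) ≤ (v, R)` if `T ⊆ R`, `v⁻¹ u` lies in `W_R` and has minimal length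
in the coset `v⁻¹ u W_T`. -/
def SLe (c d : SCell M) : Prop :=
  c.T ⊆ d.T ∧ d.u⁻¹ * c.u ∈ WT M d.T ∧
    ∀ w ∈ WT M c.T, len M (d.u⁻¹ * c.u) ≤ len M (d.u⁻¹ * c.u * w)

/-- Two points of the realisation are in the same orbit of `W`, acting by
`w (u, T) = (w u, T)`. -/
def SOrbit (x y : Rz (SLe M)) : Prop :=
  ∃ w : M.Group, ∀ c : SCell M, y.wt ⟨w * c.u, c.T, c.sph⟩ = x.wt c

/-- The Salvetti complex `X(W, S)`: the quotient by `W` of the realisation of the Salvetti
order. -/
abbrev Salvetti : Type := Quot (SOrbit M)

/-- The image in `X(W, S)` of the realisation of the set of all cells `≤ (1, T)`. -/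
def face {n : ℕ} (T : Cell M n) : Set (Salvetti M) :=
  Quot.mk _ '' {x | ∀ c, x.wt c ≠ 0 → SLe M c ⟨1, T.T, T.spherical⟩}

/-- `X` is a `K(G, 1)`: it is path connected with fundamental group `G`, its higher homotopy groups
vanish, and it is covered by a contractible space. -/
def IsKPiOne (G : Type) [Group G] (X : Type) [TopologicalSpace X] : Prop :=
  PathConnectedSpace X ∧ (∀ x : X, Nonempty (FundamentalGroup X x ≃* G)) ∧
    (∀ n, 2 ≤ n → ∀ x : X, Subsingleton (HomotopyGroup (Fin n) X x)) ∧
    ∃ (E : Type) (_ : TopologicalSpace E) (p : E → X),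
      IsCoveringMap p ∧ Surjective p ∧ ContractibleSpace E

end Vale.Agent.P203S
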