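import Vale.Agent.P203S46.Ext
import Vale.Agent.P203S46.St
import Vale.Agent.P203.Top.Cover
import Mathlib.AlgebraicTopology.FundamentalGroupoid.SimplyConnected

/-! Quotients of absolute extensors by free proper actions. -/

set_option linter.all false

namespace Vale.Agent.P203S

open Set Topology Vale.Agent.P203.Top ContinuousMap

variable {G E E' X X' : Type} [Group G] [TopologicalSpace E] [TopologicalSpace E']
  [TopologicalSpace X] [TopologicalSpace X'] [MulAction G E] [MulAction G E']

theorem nice_of [T2Space E] [LocallyCompactSpace E] [ProperlyDiscontinuousSMul G E] {q : E → X}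
    (h : IsQuotientCoveringMap q G) : Nice G E := by
  refine ⟨fun e => ?_, fun K hK e => ?_⟩
  · obtain ⟨U, hU, hd⟩ := h.disjoint e
    obtain ⟨K, h1, h2, h3⟩ := local_compact_nhds hU
    exact ⟨K, h1, h3, fun g k hk hg => hd g ⟨_, ⟨k, h2 hk, rfl⟩, h2 hg⟩⟩
  · obtain ⟨L, h1, h2⟩ := exists_compact_mem_nhds e
    exact ⟨L, h2, ProperlyDiscontinuousSMul.finite_disjoint_inter_image hK h1⟩

theorem kpi [T2Space E] [LocallyCompactSpace E] [SecondCountableTopology E] {q : E → X}
    (h : IsQuotientCoveringMap q G) (hA : AE (univ : Set E)) : IsKPiOne G X := by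
  have := contractible_of_AE hA
  refine ⟨h.surjective.pathConnectedSpace h.continuous, fun x => ?_, fun n hn x => ?_,
    E, inferInstance, q, h.isCoveringMap, h.surjective, this⟩
  · obtain ⟨e, he⟩ := h.surjective x
    exact ⟨(h.fundamentalGroupEquiv ⟨e, he⟩).trans (MulEquiv.inv' G).symm⟩
  · obtain ⟨e, he⟩ := h.surjective x
    exact subsingleton_homotopyGroup_of_covering h.isCoveringMap hn e he
      (hA.subsingleton_homotopyGroup n e)

theorem descend {q : E → X} {q' : E' → X'} (h : IsQuotientCoveringMap q G)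
    (h' : IsQuotientCoveringMap q' G) {F : E → E'} (hF : Continuous F)
    (he : ∀ (g : G) e, F (g • e) = g • F e) : ∃ f : C(X, X'), ∀ e, f (q e) = q' (F e) := by
  choose s hs using h.surjective
  have key : ∀ e, q' (F (s (q e))) = q' (F e) := by
    intro e
    obtain ⟨g, hg⟩ := h.apply_eq_iff_mem_orbit.1 (hs (q e))
    rw [← hg]
    simp only
    rw [he, h'.map_smul]
  refine ⟨⟨fun x => q' (F (s x)), ?_⟩, key⟩
  rw [h.toIsQuotientMap.continuous_iff]
  exact (h'.continuous.comp hF).congr fun e => (key e).symm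

theorem homotopic_id [T2Space E] [SecondCountableTopology E] {q : E → X}
    (h : IsQuotientCoveringMap q G) (hN : Nice G E) (hA : AE (univ : Set E)) {F : E → E}
    (hF : Continuous F) (he : ∀ (g : G) e, F (g • e) = g • F e) (f : C(X, X))
    (hf : ∀ e, f (q e) = q (F e)) : f.Homotopic (ContinuousMap.id X) := by
  have := h.toContinuousConstSMul
  obtain ⟨H, h1, h2, h3, h4⟩ := exists_homotopy hN hA hF continuous_id he (fun _ _ => rfl)
  choose s hs using h.surjective
  have key : ∀ t e, q (H (t, s (q e))) = q (H (t, e)) := by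
    intro t e
    obtain ⟨g, hg⟩ := h.apply_eq_iff_mem_orbit.1 (hs (q e))
    rw [← hg]
    simp only
    rw [h2, h.map_smul]
  have hq : IsQuotientMap (Prod.map (id : unitInterval → unitInterval) q) :=
    (IsOpenQuotientMap.id.prodMap h.isOpenQuotientMap).isQuotientMap
  refine ⟨{ toFun := fun z => q (H (z.1, s z.2)), continuous_toFun := ?_, map_zero_left := ?_,
            map_one_left := ?_ }⟩
  · rw [hq.continuous_iff]
    exact (h.continuous.comp h1).congr fun z => (key z.1 z.2).symm
  · intro x
    rw [h3, ← hf, hs]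
  · intro x
    rw [h4]; exact hs x

theorem heq [T2Space E] [SecondCountableTopology E] [T2Space E'] [SecondCountableTopology E']
    {q : E → X} {q' : E' → X'} (h : IsQuotientCoveringMap q G)
    (h' : IsQuotientCoveringMap q' G) (hN : Nice G E) (hN' : Nice G E')
    (hA : AE (univ : Set E)) (hA' : AE (univ : Set E')) : Nonempty (X ≃ₕ X') := by
  have := h.toContinuousConstSMul
  have := h'.toContinuousConstSMul
  obtain ⟨F, c1, e1⟩ := exists_eqv hN hA'
  obtain ⟨F', c2, e2⟩ := exists_eqv hN' hA
  obtain ⟨f, hf⟩ := descend h h' c1 e1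
  obtain ⟨f', hf'⟩ := descend h' h c2 e2
  refine ⟨⟨f, f', ?_, ?_⟩⟩
  · exact homotopic_id h hN hA (c2.comp c1) (fun g e => by simp [e1, e2]) _
      (fun e => by simp [hf, hf'])
  · exact homotopic_id h' hN' hA' (c1.comp c2) (fun g e => by simp [e1, e2]) _
      (fun e => by simp [hf, hf'])

end Vale.Agent.P203S
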