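import Vale.Agent.P203S46.St
import Vale.Agent.P203.Top.AE

/-! The realisation of a locally finite partial order. -/

set_option linter.all false

namespace Vale.Agent.P203S

open Set Topology Function Vale.Agent.P203.Top

variable {P : Type} {r : P → P → Prop}

/-- locally finite partial orders -/
structure LF (r : P → P → Prop) : Prop where
  refl : ∀ a, r a a
  trans : ∀ {a b c}, r a b → r b c → r a c
  anti : ∀ {a b}, r a b → r b a → a = b
  fin : ∀ c, {d | r c d ∨ r d c}.Finite

theorem Rz.ext {x y : Rz r} (h : ∀ c, x.1 c = y.1 c) : x = y := by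
  cases x; cases y
  congr
  exact funext h

theorem Rz.pos (x : Rz r) {c : P} (h : x.1 c ≠ 0) : 0 < x.1 c := lt_of_le_of_ne (x.nn c) h.symm

theorem Rz.sum_of (x : Rz r) {F : Finset P} (h : support x.1 ⊆ F) : ∑ c ∈ F, x.1 c = 1 := by
  rw [← x.sum, finsum_eq_sum_of_support_subset _ h]

theorem Rz.ne (x : Rz r) : ∃ c, x.1 c ≠ 0 := by
  by_contra h
  push Not at h
  have := x.sum
  simp [h] at this

theorem Rz.cmp (h : LF r) (x : Rz r) {c d : P} (hc : x.1 c ≠ 0) (hd : x.1 d ≠ 0) :
    r c d ∨ r d c := by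
  by_cases e : c = d
  · exact Or.inl (e ▸ h.refl c)
  · exact x.chain hc hd e

theorem Rz.le_one (x : Rz r) (c : P) : x.1 c ≤ 1 := by
  classical
  by_cases h : x.1 c = 0
  · rw [h]; exact zero_le_one
  · rw [← x.sum_of (F := x.fin.toFinset) (by simp)]
    exact Finset.single_le_sum (fun i _ => x.nn i) (by simpa using h)

theorem top_eq (h : LF r) :
    instTopRz r = TopologicalSpace.induced (fun x : Rz r => x.1) Pi.topologicalSpace := by
  classical
  apply le_antisymm
  · refine iSup₂_le fun σ _ => ?_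
    rw [coinduced_le_iff_le_induced, induced_compose]
    exact le_rfl
  · intro U hU
    letI t0 : TopologicalSpace (Rz r) :=
      TopologicalSpace.induced (fun x : Rz r => x.1) Pi.topologicalSpace
    have hv : Continuous[t0, _] fun x : Rz r => x.1 := continuous_induced_dom
    have hcl : ∀ σ : Finset P, IsChain r (σ : Set P) →
        IsClosed[t0] {x : Rz r | support x.1 ⊆ σ ∧ x ∉ U} := by
      intro σ hσ
      have h1 := isOpen_iSup_iff.1 (isOpen_iSup_iff.1 hU σ) hσ
      rw [isOpen_coinduced] at h1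
      have h2 : IsOpen ((fun x : {x : Rz r // support x.1 ⊆ σ} => x.1) ⁻¹' U) := by
        convert h1
        exact induced_compose
      have h3 : IsClosed {x : Rz r | support x.1 ⊆ σ} := by
        have : {x : Rz r | support x.1 ⊆ σ} = ⋂ c ∉ σ, {x : Rz r | x.1 c = 0} := by
          ext x
          simp only [mem_ofPred_eq, mem_iInter]
          exact ⟨fun a c hc => by_contra fun b => hc (a b), fun a c hc => by_contra fun b => hc (a c b)⟩
        rw [this]
        exact isClosed_iInter fun c => isClosed_iInter fun _ =>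
          isClosed_eq ((continuous_apply c).comp hv) continuous_const
      have h4 := h3.isClosedEmbedding_subtypeVal.isClosedMap _ h2.isClosed_compl
      convert h4 using 1
      ext x
      exact ⟨fun a => ⟨⟨x, a.1⟩, a.2, rfl⟩, by rintro ⟨y, a, rfl⟩; exact ⟨y.2, a⟩⟩
    refine isOpen_iff_forall_mem_open.2 fun x hx => ?_
    obtain ⟨c, hc⟩ := x.ne
    refine ⟨{y | 0 < y.1 c} \ ⋃ σ ∈ ((h.fin c).toFinset.powerset.filter
      fun σ : Finset P => IsChain r (σ : Set P)), {x : Rz r | support x.1 ⊆ σ ∧ x ∉ U}, ?_, ?_, ?_⟩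
    · rintro y ⟨h1, h2⟩
      by_contra hy
      refine h2 (mem_iUnion₂.2 ⟨y.fin.toFinset, ?_, by simp, hy⟩)
      simp only [Finset.mem_filter, Finset.mem_powerset, Finite.coe_toFinset]
      refine ⟨fun d hd => ?_, y.chain⟩
      simp only [Finite.mem_toFinset] at hd ⊢
      exact y.cmp h (ne_of_gt h1) hd
    · refine (isOpen_lt continuous_const ((continuous_apply c).comp hv)).sdiff ?_
      exact isClosed_biUnion_finset fun σ hσ => hcl σ (Finset.mem_filter.1 hσ).2
    · exact ⟨x.pos hc, fun a => by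
        obtain ⟨σ, -, b⟩ := mem_iUnion₂.1 a
        exact b.2 hx⟩

theorem emb (h : LF r) : IsEmbedding fun x : Rz r => x.1 :=
  ⟨⟨top_eq h⟩, fun _ _ e => Rz.ext (congrFun e)⟩

theorem cont_ap (h : LF r) (c : P) : Continuous fun x : Rz r => x.1 c :=
  (continuous_apply c).comp (emb h).continuous

theorem cont_iff (h : LF r) {Z : Type*} [TopologicalSpace Z] {f : Z → Rz r} {s : Set Z} :
    ContinuousOn f s ↔ ∀ c, ContinuousOn (fun z => (f z).1 c) s := by
  rw [(emb h).isInducing.continuousOn_iff, continuousOn_pi]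
  rfl

theorem t2 (h : LF r) : T2Space (Rz r) := (emb h).t2Space

theorem sc (h : LF r) [Countable P] : SecondCountableTopology (Rz r) :=
  (emb h).secondCountableTopology

theorem isCompact_K (h : LF r) {F : Set P} (hF : F.Finite) :
    IsCompact {x : Rz r | support x.1 ⊆ F} := by
  classical
  rw [(emb h).isCompact_iff]
  have hc : IsCompact (Set.pi univ fun _ : P => Icc (0 : ℝ) 1) :=
    isCompact_univ_pi fun _ => isCompact_Icc
  have e : (fun x : Rz r => x.1) '' {x : Rz r | support x.1 ⊆ F} =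
      (Set.pi univ fun _ : P => Icc (0 : ℝ) 1) ∩ ((⋂ c ∉ F, {x | x c = 0}) ∩
        ((⋂ c, ⋂ d, ⋂ _ : ¬ (r c d ∨ r d c), {x | x c * x d = 0}) ∩
          {x | ∑ c ∈ hF.toFinset, x c = 1})) := by
    ext x
    simp only [mem_image, mem_ofPred_eq, mem_inter_iff, mem_pi, mem_univ, forall_true_left,
      mem_iInter, mem_Icc]
    constructor
    · rintro ⟨y, hy, rfl⟩
      refine ⟨fun c => ⟨y.nn c, y.le_one c⟩, fun c hc => by_contra fun b => hc (hy b),
        fun c d hcd => ?_, y.sum_of (by simpa using hy)⟩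
      by_contra b
      exact hcd (y.cmp h (left_ne_zero_of_mul b) (right_ne_zero_of_mul b))
    · rintro ⟨h1, h2, h3, h4⟩
      have hs : support x ⊆ F := fun c hc => by_contra fun b => hc (h2 c b)
      refine ⟨⟨x, fun c => (h1 c).1, hF.subset hs, fun c hc d hd _ => ?_, ?_⟩, hs, rfl⟩
      · by_contra b
        exact mul_ne_zero hc hd (h3 c d b)
      · rw [finsum_eq_sum_of_support_subset (s := hF.toFinset) _ (by simpa using hs), h4]
  rw [e]
  refine hc.inter_right (IsClosed.inter ?_ (IsClosed.inter ?_ ?_))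
  · exact isClosed_iInter fun c => isClosed_iInter fun _ =>
      isClosed_eq (continuous_apply c) continuous_const
  · exact isClosed_iInter fun c => isClosed_iInter fun d => isClosed_iInter fun _ =>
      isClosed_eq ((continuous_apply c).mul (continuous_apply d)) continuous_const
  · exact isClosed_eq (continuous_finsetSum _ fun c _ => continuous_apply c) continuous_const

theorem lc (h : LF r) : LocallyCompactSpace (Rz r) := by
  have := t2 h
  have : WeaklyLocallyCompactSpace (Rz r) := ⟨fun x => by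
    obtain ⟨c, hc⟩ := x.ne
    refine ⟨_, isCompact_K h (h.fin c), Filter.mem_of_superset
      ((isOpen_lt continuous_const (cont_ap h c)).mem_nhds (x.pos hc)) fun y hy d hd => ?_⟩
    exact y.cmp h (ne_of_gt hy) hd⟩
  infer_instance

theorem exists_ext (h : LF r) {s : Set P} (hs : s.Finite) (hc : IsChain r s) (hn : s.Nonempty) :
    (∃ c ∈ s, ∀ d ∈ s, r c d) ∧ ∃ c ∈ s, ∀ d ∈ s, r d c := by
  letI : PartialOrder P :=
    { le := r, le_refl := h.refl, le_trans := fun _ _ _ => h.trans
      le_antisymm := fun _ _ => h.anti }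
  have tot : ∀ c ∈ s, ∀ d ∈ s, r c d ∨ r d c := fun c a d b => by
    by_cases e : c = d
    · exact Or.inl (e ▸ h.refl c)
    · exact hc a b e
  obtain ⟨c, h1⟩ := hs.exists_minimal hn
  obtain ⟨c', h2⟩ := hs.exists_maximal hn
  exact ⟨⟨c, h1.1, fun d hd => (tot c h1.1 d hd).elim id fun a => h1.2 hd a⟩,
    ⟨c', h2.1, fun d hd => (tot d hd c' h2.1).elim id fun a => h2.2 hd a⟩⟩

/-- the least element of the support -/
noncomputable def mn (h : LF r) (x : Rz r) : P := (exists_ext h x.fin x.chain x.ne).1.choose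

/-- the greatest element of the support -/
noncomputable def mx (h : LF r) (x : Rz r) : P := (exists_ext h x.fin x.chain x.ne).2.choose

theorem mn_ne (h : LF r) (x : Rz r) : x.1 (mn h x) ≠ 0 :=
  (exists_ext h x.fin x.chain x.ne).1.choose_spec.1

theorem mn_le (h : LF r) (x : Rz r) {d : P} (hd : x.1 d ≠ 0) : r (mn h x) d :=
  (exists_ext h x.fin x.chain x.ne).1.choose_spec.2 d hd

theorem mx_ne (h : LF r) (x : Rz r) : x.1 (mx h x) ≠ 0 :=
  (exists_ext h x.fin x.chain x.ne).2.choose_spec.1

theorem le_mx (h : LF r) (x : Rz r) {d : P} (hd : x.1 d ≠ 0) : r d (mx h x) :=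
  (exists_ext h x.fin x.chain x.ne).2.choose_spec.2 d hd

theorem mn_eq (h : LF r) (x : Rz r) {c : P} (hc : x.1 c ≠ 0) (hd : ∀ d, x.1 d ≠ 0 → r c d) :
    mn h x = c := h.anti (mn_le h x hc) (hd _ (mn_ne h x))

theorem mx_eq (h : LF r) (x : Rz r) {c : P} (hc : x.1 c ≠ 0) (hd : ∀ d, x.1 d ≠ 0 → r d c) :
    mx h x = c := h.anti (hd _ (mx_ne h x)) (le_mx h x hc)

theorem mn_le_iff (h : LF r) (x : Rz r) (q : P) : r (mn h x) q ↔ ∃ c, r c q ∧ 0 < x.1 c :=
  ⟨fun a => ⟨_, a, x.pos (mn_ne h x)⟩, fun ⟨_, a, b⟩ => h.trans (mn_le h x b.ne') a⟩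

theorem isOpen_mn (h : LF r) (q : P) : IsOpen {x : Rz r | r (mn h x) q} := by
  have : {x : Rz r | r (mn h x) q} = ⋃ c, ⋃ _ : r c q, {x : Rz r | 0 < x.1 c} := by
    ext x; simp [mn_le_iff]
  rw [this]
  exact isOpen_iUnion fun c => isOpen_iUnion fun _ => isOpen_lt continuous_const (cont_ap h c)

open Classical in
/-- the vertex of `c` -/
noncomputable def vtx (r : P → P → Prop) (c : P) : Rz r :=
  ⟨Pi.single c 1, fun d => by rw [Pi.single_apply]; split_ifs <;> norm_num,
    (finite_singleton c).subset Pi.support_single_subset,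
    (subsingleton_singleton.anti Pi.support_single_subset).isChain, by
      rw [finsum_eq_single _ c fun d hd => Pi.single_eq_of_ne hd _, Pi.single_eq_same]⟩

open Classical in
theorem vtx_ap (c d : P) : (vtx r c).1 d = if d = c then 1 else 0 := by
  simp only [vtx, Pi.single_apply]

theorem mn_vtx (h : LF r) (c : P) : mn h (vtx r c) = c :=
  mn_eq h _ (by simp [vtx_ap]) fun d hd => by
    have : d = c := by simpa [vtx_ap] using hd
    exact this ▸ h.refl d

end Vale.Agent.P203S
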