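import Vale.Agent.P203S46.Rz

/-! The open stars of the principal lower sets are absolute extensors. -/

set_option linter.all false

namespace Vale.Agent.P203S

open Set Topology Function Vale.Agent.P203.Top

variable {P : Type} {r : P → P → Prop}

open Classical in
/-- the mass of the elements of `F` that are not comparable with `c` -/
noncomputable def inc (r : P → P → Prop) (F : Finset P) (y : P → ℝ) (c : P) : ℝ :=
  ∑ d ∈ F.filter fun d => ¬ (r c d ∨ r d c), max (y d) 0

open Classical in
/-- the unnormalised retraction -/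
noncomputable def rt (r : P → P → Prop) (F : Finset P) (y : P → ℝ) (c : P) : ℝ :=
  if c ∈ F then max (y c - inc r F y c) 0 else 0

theorem inc_nn (F : Finset P) (y : P → ℝ) (c : P) : 0 ≤ inc r F y c :=
  Finset.sum_nonneg fun _ _ => le_max_right _ _

theorem le_inc {F : Finset P} (y : P → ℝ) {c d : P} (hd : d ∈ F) (h : ¬ (r c d ∨ r d c)) :
    y d ≤ inc r F y c := by
  classical
  refine (le_max_left _ 0).trans ?_
  unfold inc
  exact Finset.single_le_sum (f := fun d => max (y d) 0) (fun _ _ => le_max_right _ _)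
    (by simpa [hd] using h)

theorem cont_inc (F : Finset P) (c : P) : Continuous fun y => inc r F y c :=
  continuous_finsetSum _ fun d _ => (continuous_apply d).max continuous_const

theorem cont_rt (F : Finset P) (c : P) : Continuous fun y => rt r F y c := by
  unfold rt
  split_ifs
  · exact ((continuous_apply c).sub (cont_inc F c)).max continuous_const
  · exact continuous_const

theorem rt_nn (F : Finset P) (y : P → ℝ) (c : P) : 0 ≤ rt r F y c := by
  unfold rt
  split_ifs
  · exact le_max_right _ _
  · exact le_rfl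

theorem rt_ne {F : Finset P} {y : P → ℝ} {c : P} (h : rt r F y c ≠ 0) :
    c ∈ F ∧ inc r F y c < y c := by
  unfold rt at h
  split_ifs at h with hc
  · refine ⟨hc, ?_⟩
    by_contra a
    exact h (max_eq_right (by linarith))
  · exact (h rfl).elim

theorem rt_pos {F : Finset P} {y : P → ℝ} {c : P} (hc : c ∈ F) (h : inc r F y c < y c) :
    0 < rt r F y c := by
  unfold rt
  rw [if_pos hc]
  exact lt_max_of_lt_left (by linarith)

theorem rt_eq (h : LF r) {F : Finset P} (x : Rz r) (hx : support x.1 ⊆ F) (c : P) :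
    rt r F x.1 c = x.1 c ∧ (x.1 c ≠ 0 → inc r F x.1 c = 0) := by
  classical
  have h2 : x.1 c ≠ 0 → inc r F x.1 c = 0 := by
    intro hc
    refine Finset.sum_eq_zero fun d hd => ?_
    have : x.1 d = 0 := by_contra fun a => (Finset.mem_filter.1 hd).2 (x.cmp h hc a)
    rw [this, max_self]
  refine ⟨?_, h2⟩
  unfold rt
  by_cases hc : x.1 c = 0
  · have := inc_nn (r := r) F x.1 c
    split_ifs
    · rw [hc]; exact max_eq_right (by linarith)
    · exact hc.symm
  · rw [if_pos (show c ∈ F from hx hc), h2 hc, sub_zero]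
    exact max_eq_left (x.nn c)

theorem AE_mn (h : LF r) (q : P) : AE {x : Rz r | r (mn h x) q} := by
  classical
  have hF0 : (⋃ c ∈ {c | r q c ∨ r c q}, {d | r c d ∨ r d c}).Finite :=
    (h.fin q).biUnion fun c _ => h.fin c
  set F := hF0.toFinset with hF
  have mF : ∀ {c d}, r c q → (r c d ∨ r d c) → d ∈ F := fun {c d} a b => by
    rw [hF, Finite.mem_toFinset]
    exact mem_iUnion₂.2 ⟨c, Or.inr a, b⟩
  let O : Set (P → ℝ) := {y | ∃ c, r c q ∧ inc r F y c < y c}
  have hO : IsOpen O := by
    have : O = ⋃ c, ⋃ _ : r c q, {y | inc r F y c < y c} := by ext y; simp [O]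
    rw [this]
    exact isOpen_iUnion fun c => isOpen_iUnion fun _ =>
      isOpen_lt (cont_inc F c) (continuous_apply c)
  have hq : (vtx r q).1 ∈ O := by
    refine ⟨q, h.refl q, ?_⟩
    have a : (vtx r q).1 q = 1 := by simp [vtx_ap]
    rw [(rt_eq h (vtx r q) (fun d hd => ?_) q).2 (by rw [a]; exact one_ne_zero), a]
    · exact one_pos
    · have : d = q := by simpa [vtx_ap] using hd
      subst this
      exact mF (h.refl d) (Or.inl (h.refl d))
  have hs : StarConvex ℝ (vtx r q).1 O := by
    rintro y ⟨c, h1, h2⟩ a b ha hb hab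
    rcases hb.eq_or_lt with rfl | hb'
    · obtain rfl : a = 1 := by linarith
      simpa using hq
    · refine ⟨c, h1, ?_⟩
      have e1 : inc r F (a • (vtx r q).1 + b • y) c = b * inc r F y c := by
        unfold inc
        rw [Finset.mul_sum]
        refine Finset.sum_congr rfl fun d hd => ?_
        have : d ≠ q := by
          rintro rfl
          exact (Finset.mem_filter.1 hd).2 (Or.inl h1)
        simp only [Pi.add_apply, Pi.smul_apply, vtx_ap, this, if_false, smul_eq_mul, mul_zero,
          zero_add]
        rw [mul_max_of_nonneg _ _ hb, mul_zero]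
      have e2 := mul_nonneg ha ((vtx r q).nn c)
      have e3 := mul_lt_mul_of_pos_left h2 hb'
      rw [e1]
      simp only [Pi.add_apply, Pi.smul_apply, smul_eq_mul]
      linarith
  have hpos : ∀ y ∈ O, 0 < ∑ c ∈ F, rt r F y c := by
    rintro y ⟨c, h1, h2⟩
    have hc : c ∈ F := mF h1 (Or.inl (h.refl c))
    exact Finset.sum_pos' (fun _ _ => rt_nn F y _) ⟨c, hc, rt_pos hc h2⟩
  let s : (P → ℝ) → Rz r := fun y =>
    if hy : 0 < ∑ c ∈ F, rt r F y c then
      ⟨fun c => rt r F y c / ∑ c ∈ F, rt r F y c, fun c => div_nonneg (rt_nn F y c) hy.le,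
        F.finite_toSet.subset fun c hc => (rt_ne (div_ne_zero_iff.1 hc).1).1,
        fun c hc d hd _ => by
          by_contra a
          have a1 := rt_ne (div_ne_zero_iff.1 hc).1
          have a2 := rt_ne (div_ne_zero_iff.1 hd).1
          have b1 := le_inc (r := r) y a2.1 a
          have b2 := le_inc (r := r) y a1.1 (fun e => a e.symm)
          linarith [a1.2, a2.2], by
          rw [finsum_eq_sum_of_support_subset (s := F), ← Finset.sum_div, div_self hy.ne']
          exact fun c hc => (rt_ne (div_ne_zero_iff.1 hc).1).1⟩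
    else vtx r q
  have sv : ∀ y ∈ O, ∀ c, (s y).1 c = rt r F y c / ∑ c ∈ F, rt r F y c := by
    intro y hy c
    simp only [s, hpos y hy, dif_pos]
  have sup : ∀ x : Rz r, r (mn h x) q → support x.1 ⊆ F := fun x hx d hd =>
    mF hx (Or.inl (mn_le h x hd))
  have mO : ∀ x : Rz r, r (mn h x) q → x.1 ∈ O := fun x hx =>
    ⟨_, hx, by
      rw [(rt_eq h x (sup x hx) _).2 (mn_ne h x)]
      exact x.pos (mn_ne h x)⟩
  refine (AE.of_starConvex hO hq hs).of_retract s (fun x => x.1) ?_
    (emb h).continuous.continuousOn ?_ mO ?_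
  · rw [cont_iff h]
    intro c
    refine ContinuousOn.congr ?_ fun y hy => sv y hy c
    exact (cont_rt F c).continuousOn.div
      (continuous_finsetSum _ fun c _ => cont_rt F c).continuousOn fun y hy => (hpos y hy).ne'
  · rintro y hy
    obtain ⟨c, h1, h2⟩ := id hy
    refine (mn_le_iff h _ q).2 ⟨c, h1, ?_⟩
    rw [sv y hy]
    exact div_pos (rt_pos (mF h1 (Or.inl (h.refl c))) h2) (hpos y hy)
  · intro x hx
    refine Rz.ext fun c => ?_
    rw [sv _ (mO x hx), (rt_eq h x (sup x hx) c).1,
      Finset.sum_congr rfl fun d _ => (rt_eq h x (sup x hx) d).1, x.sum_of (sup x hx), div_one]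

end Vale.Agent.P203S
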