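import Vale.Agent.P203S46.Gen
import Vale.Agent.P203S46.Star

/-! The Salvetti complex is stratified by the Salvetti poset. -/

set_option linter.all false

namespace Vale.Agent.P203S

open Set Topology Function Vale.Agent.P203 Vale.Agent.P203.Top Vale.Agent.P203.Sph
  Vale.Agent.P203.Tits Vale.Agent.P203.Gar

variable {S : Type} {M : CoxeterMatrix S}

/-- the same cell in the poset of the development -/
def toWC (c : SCell M) : WCell M := ⟨c.u, c.T, c.sph⟩

theorem SLe_iff {c d : SCell M} : SLe M c d ↔ toWC c ≤ toWC d := by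
  refine and_congr Iff.rfl (and_congr Iff.rfl ⟨fun h t ht => ?_, fun h w hw => ?_⟩)
  · have h1 := h (M.simple t) (simple_mem_WP ht)
    have h2 := len_lt_or (d.u⁻¹ * c.u) t
    change len M (d.u⁻¹ * c.u) < len M (d.u⁻¹ * c.u * M.simple t)
    omega
  · have h1 := len_mul_of_min h hw
    change len M (d.u⁻¹ * c.u * w) = len M (d.u⁻¹ * c.u) + _ at h1
    omega

theorem SLe_iff' {c d : SCell M} :
    SLe M c d ↔ c.T ⊆ d.T ∧ MinIn M (d.T : Set S) (c.T : Set S) (d.u⁻¹ * c.u) := SLe_iff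

theorem toWC_inj : Injective (toWC : SCell M → WCell M) := fun _ _ e =>
  SCell.ext (congrArg WCell.g e) (congrArg WCell.T e)

theorem lf [Finite S] : LF (SLe M) where
  refl a := SLe_iff.2 le_rfl
  trans h h' := SLe_iff.2 ((SLe_iff.1 h).trans (SLe_iff.1 h'))
  anti h h' := toWC_inj (le_antisymm (SLe_iff.1 h) (SLe_iff.1 h'))
  fin c := by
    have hU : (⋃ T ∈ {T : Finset S | Spherical M T}, (WT M T : Set M.Group)).Finite :=
      (toFinite _).biUnion fun T hT => hT
    refine Finite.of_finite_image (f := fun d => (c.u⁻¹ * d.u, d.T))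
      ((hU.prod finite_univ).subset ?_) ?_
    · rintro _ ⟨d, hd | hd, rfl⟩
      · refine ⟨mem_iUnion₂.2 ⟨d.T, d.sph, ?_⟩, mem_univ _⟩
        simpa using inv_mem hd.2.1
      · exact ⟨mem_iUnion₂.2 ⟨c.T, c.sph, hd.2.1⟩, mem_univ _⟩
    · intro a _ b _ e
      exact SCell.ext (mul_left_cancel (congrArg Prod.fst e)) (congrArg Prod.snd e)

theorem countable_scell [Finite S] : Countable (SCell M) := by
  have := countable_acell (M := M)
  have : Countable (WCell M) := cellProj_surjective.countable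
  exact toWC_inj.countable

/-- left translation -/
def sMul (w : M.Group) : SCell M ≃ SCell M where
  toFun c := ⟨w * c.u, c.T, c.sph⟩
  invFun c := ⟨w⁻¹ * c.u, c.T, c.sph⟩
  left_inv _ := SCell.ext (inv_mul_cancel_left _ _) rfl
  right_inv _ := SCell.ext (mul_inv_cancel_left _ _) rfl

theorem sMul_le (w : M.Group) {c d : SCell M} : SLe M (sMul w c) (sMul w d) ↔ SLe M c d := by
  have e : (w * d.u)⁻¹ * (w * c.u) = d.u⁻¹ * c.u := by group
  simp only [SLe, sMul, Equiv.coe_fn_mk, e]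

theorem sMul_mul (w w' : M.Group) (c : SCell M) : sMul (w * w') c = sMul w (sMul w' c) :=
  SCell.ext (mul_assoc _ _ _) rfl

theorem sMul_one (c : SCell M) : sMul 1 c = c := SCell.ext (one_mul _) rfl

noncomputable instance instActRz : MulAction M.Group (Rz (SLe M)) where
  smul w x := ⟨fun c => x.wt (sMul w⁻¹ c), fun _ => x.nn _,
    x.fin.preimage (sMul w⁻¹).injective.injOn, fun c hc d hd hne =>
      (x.chain hc hd ((sMul w⁻¹).injective.ne hne)).imp (sMul_le _).1 (sMul_le _).1, by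
      rw [finsum_comp_equiv (sMul w⁻¹) (f := x.wt)]; exact x.sum⟩
  one_smul x := Rz.ext fun c => by
    change x.wt (sMul 1⁻¹ c) = _
    rw [inv_one, sMul_one]
  mul_smul w w' x := Rz.ext fun c => by
    change x.wt (sMul (w * w')⁻¹ c) = x.wt (sMul w'⁻¹ (sMul w⁻¹ c))
    rw [mul_inv_rev, sMul_mul]

theorem smul_wt (w : M.Group) (x : Rz (SLe M)) (c : SCell M) :
    (w • x).wt c = x.wt (sMul w⁻¹ c) := rfl

theorem smul_wt' (w : M.Group) (x : Rz (SLe M)) (c : SCell M) :
    (w • x).wt (sMul w c) = x.wt c := by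
  rw [smul_wt, ← sMul_mul, inv_mul_cancel, sMul_one]

theorem sMul_inv (w : M.Group) (c : SCell M) : sMul w (sMul w⁻¹ c) = c := by
  rw [← sMul_mul, mul_inv_cancel, sMul_one]

theorem sorbit_eq : SOrbit M = (MulAction.orbitRel M.Group (Rz (SLe M))).r := by
  funext x y
  refine propext ⟨fun ⟨w, h⟩ => ⟨w⁻¹, Rz.ext fun c => ?_⟩, fun ⟨w, h⟩ => ⟨w⁻¹, fun c => ?_⟩⟩
  · change y.wt (sMul w⁻¹⁻¹ c) = _
    rw [inv_inv]; exact h c
  · rw [← h]; rfl

theorem mk_eq_iff {x y : Rz (SLe M)} :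
    Quot.mk (SOrbit M) x = Quot.mk (SOrbit M) y ↔ x ∈ MulAction.orbit M.Group y := by
  rw [sorbit_eq]
  exact Quotient.eq''

theorem mk_smul (w : M.Group) (x : Rz (SLe M)) :
    Quot.mk (SOrbit M) (w • x) = Quot.mk (SOrbit M) x := mk_eq_iff.2 ⟨w, rfl⟩

variable [Finite S]

theorem cont_smul (w : M.Group) : Continuous fun x : Rz (SLe M) => w • x := by
  rw [← continuousOn_univ, cont_iff lf]
  exact fun c => (cont_ap lf _).continuousOn

theorem mn_smul (w : M.Group) (x : Rz (SLe M)) : mn lf (w • x) = sMul w (mn lf x) :=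
  mn_eq lf _ (by rw [smul_wt']; exact mn_ne lf x) fun d hd => by
    rw [← sMul_inv w d, sMul_le]; exact mn_le lf x hd

theorem mx_smul (w : M.Group) (x : Rz (SLe M)) : mx lf (w • x) = sMul w (mx lf x) :=
  mx_eq lf _ (by rw [smul_wt']; exact mx_ne lf x) fun d hd => by
    rw [← sMul_inv w d, sMul_le]; exact le_mx lf x hd

theorem strat_X : Strat (fun x : Rz (SLe M) => toWC (mn lf x)) (Quot.mk (SOrbit M)) where
  cont := cont_smul
  eqv w x := by rw [mn_smul]; rfl
  surj c := ⟨vtx _ ⟨c.g, c.T, c.sph⟩, by simp only [mn_vtx]; rfl⟩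
  op c := by
    have := isOpen_mn (lf (M := M)) ⟨c.g, c.T, c.sph⟩
    simp only [SLe_iff] at this
    exact this
  ae c := by
    have := AE_mn (lf (M := M)) ⟨c.g, c.T, c.sph⟩
    simp only [SLe_iff] at this
    exact this
  quot := isQuotientMap_quot_mk
  orb := mk_eq_iff

theorem t2_X : T2Space (Salvetti M) := by
  have := t2 (lf (M := M))
  have := lc (lf (M := M))
  have : ContinuousConstSMul M.Group (Rz (SLe M)) := ⟨cont_smul⟩
  have fin : ∀ {K : Set (Rz (SLe M))}, IsCompact K → (mn lf '' K).Finite := by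
    intro K hK
    obtain ⟨t, -, ht⟩ := hK.elim_nhds_subcover (fun z => {x | SLe M (mn lf x) (mn lf z)})
      fun z _ => (isOpen_mn lf _).mem_nhds (lf.refl _)
    refine (t.finite_toSet.biUnion fun z _ => lf.fin (mn lf z)).subset ?_
    rintro _ ⟨z, hz, rfl⟩
    obtain ⟨y, hy, a⟩ := mem_iUnion₂.1 (ht hz)
    exact mem_iUnion₂.2 ⟨y, hy, Or.inr a⟩
  have : ProperlyDiscontinuousSMul M.Group (Rz (SLe M)) := ⟨fun hK hL => by
    refine (((fin hK).prod (fin hL)).image fun x => x.2.u * x.1.u⁻¹).subset ?_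
    rintro g ⟨_, ⟨z, hz, rfl⟩, hz'⟩
    refine ⟨(mn lf z, mn lf (g • z)), ⟨⟨z, hz, rfl⟩, ⟨_, hz', rfl⟩⟩, ?_⟩
    simp only [mn_smul]
    exact mul_inv_cancel_right _ _⟩
  have key : ∀ r, r = (MulAction.orbitRel M.Group (Rz (SLe M))).r → T2Space (Quot r) := by
    rintro _ rfl
    exact inferInstanceAs (T2Space (Quotient (MulAction.orbitRel M.Group (Rz (SLe M)))))
  exact key _ sorbit_eq

theorem kpi_all : IsKPiOne (ArtinGroup M) (Salvetti M) ∧ IsKPiOne (ArtinGroup M) (OrbitSpace M) ∧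
    Nonempty (ContinuousMap.HomotopyEquiv (Salvetti M) (OrbitSpace M)) := by
  have := t2 (lf (M := M))
  have := lc (lf (M := M))
  have := countable_scell (M := M)
  have := sc (lf (M := M))
  have : LocallyCompactSpace (complementSet M) := isOpen_complementSet.locallyCompactSpace
  exact ⟨strat_X.kpi, strat_Y.kpi, strat_X.heq strat_Y⟩

end Vale.Agent.P203S
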